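import Vale.Agent.P160.Rate.Moment
import Vale.Agent.P160.Rate.Ker

/-!
Binary atoms, their domination by mixtures of lazy atoms of laziness one half, and lazy rows
of laziness one half seen as uniform parities with independent signs.
-/

namespace Vale.Agent.P160.Rate2

open Finset Vale.Agent.P160.Rate

set_option linter.unusedSectionVars false

noncomputable section

variable {ι : Type*} [Fintype ι] [DecidableEq ι] {G : Type*} [AddCommGroup G] [Fintype G] [DecidableEq G]

/-- The proportion of binary coefficient vectors with weighted sum `h`. -/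
def bp (g : ι → G) (h : G) : ℝ :=
  (∑ b : ι → Bool, if (∑ i, if b i then g i else 0) = h then (1 : ℝ) else 0) / 2 ^ Fintype.card ι

theorem bp_nonneg (g : ι → G) (h : G) : 0 ≤ bp g h :=
  div_nonneg (sum_nonneg fun b _ => by split <;> norm_num) (by positivity)

theorem bp_le_one (g : ι → G) (h : G) : bp g h ≤ 1 := by
  rw [bp, div_le_one (by positivity)]
  refine (sum_le_card_nsmul _ _ 1 fun b _ => by split <;> norm_num).trans (le_of_eq ?_)
  simp

/-- The character identity for binary coefficients. -/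
theorem card_mul_bp (g : ι → G) (h : G) :
    (Fintype.card G : ℂ) * (bp g h : ℂ) = ∑ χ : AddChar G ℂ, χ (-h) * ∏ i, ((1 + χ (g i)) / 2) := by
  have hexp : ∀ χ : AddChar G ℂ, χ (-h) * ∏ i, ((1 + χ (g i)) / 2)
      = (∑ b : ι → Bool, χ ((∑ i, if b i then g i else 0) - h)) / 2 ^ Fintype.card ι := by
    intro χ
    have h1 : ∀ i, 1 + χ (g i) = ∑ b : Bool, χ (if b then g i else 0) := by
      intro i; simp [add_comm]
    rw [prod_div_distrib, prod_const, card_univ, ← mul_div_assoc]
    congr 1
    simp_rw [h1, Fintype.prod_sum, mul_sum]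
    refine sum_congr rfl fun b _ => ?_
    rw [sub_eq_add_neg, χ.map_add_eq_mul, char_sum, mul_comm]
  simp_rw [hexp]
  rw [← sum_div, sum_comm, bp]
  push_cast
  rw [mul_div_assoc']
  congr 1
  rw [mul_sum]
  refine sum_congr rfl fun b _ => ?_
  rw [AddChar.sum_apply_eq_ite]
  by_cases hb : (∑ i, if b i then g i else 0) = h
  · simp [hb]
  · simp [hb, sub_eq_zero]

theorem norm_sq_half (χ : AddChar G ℂ) (a : G) : ‖(1 + χ a) / 2‖ ^ 2 = phi (1 / 2) (χ a) := by
  have hu := Complex.normSq_eq_norm_sq (χ a)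
  rw [norm_char χ, Complex.normSq_apply] at hu
  rw [← Complex.normSq_eq_norm_sq, Complex.normSq_apply, phi]
  simp only [Complex.div_ofNat_re, Complex.div_ofNat_im, Complex.add_re, Complex.add_im,
    Complex.one_re, Complex.one_im, zero_add]
  nlinarith

theorem norm_half_le_fb (χ : AddChar G ℂ) (a : G) : ‖(1 + χ a) / 2‖ ≤ fb (χ a) := by
  have h := norm_sq_half χ a
  have hn := norm_nonneg ((1 + χ a) / 2)
  have h0 := neg_one_le_re χ a
  have h1 := re_le_one χ a
  unfold fb phi at *
  nlinarith [sq_nonneg (1 - (χ a).re), sq_nonneg (‖(1 + χ a) / 2‖ - 1)]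

/-- Domination of a binary atom by a weighted mixture of lazy atoms of laziness one half,
when every index has weight at most one half. -/
theorem bp_le_mix {Ω : Type*} [Fintype Ω] (g : ι → G) (h : G) (w c : Ω → ℝ) (H : Ω → Finset ι)
    (hw : ∀ o, 0 ≤ w o) (hsum : ∑ o, w o = 1) (hc : ∀ o, 0 < c o) (hc1 : 1 ≤ ∏ o, c o ^ w o)
    (hf : ∀ e, ∑ o ∈ univ.filter (fun o => e ∈ H o), w o ≤ 1 / 2) :
    bp g h ≤ ∑ o, w o * c o * pr (fun _ => 1 / 2) (fun e => if e ∈ H o then g e else 0) 0 := by
  classical
  have hc0 : (0 : ℝ) < Fintype.card G := by exact_mod_cast Fintype.card_pos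
  refine le_of_mul_le_mul_left ?_ hc0
  rw [mul_sum]
  simp only [mul_left_comm (Fintype.card G : ℝ), card_mul_pr_zero, mul_sum]
  rw [sum_comm]
  calc (Fintype.card G : ℝ) * bp g h = ‖(Fintype.card G : ℂ) * (bp g h : ℂ)‖ := by
        rw [norm_mul, Complex.norm_natCast, Complex.norm_real, Real.norm_of_nonneg (bp_nonneg g h)]
    _ ≤ ∑ χ : AddChar G ℂ, ‖χ (-h) * ∏ i, ((1 + χ (g i)) / 2)‖ := by
        rw [card_mul_bp]; exact norm_sum_le _ _
    _ ≤ _ := by
        refine sum_le_sum fun χ _ => ?_
        rw [norm_mul, norm_char, one_mul, norm_prod]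
        set p : ι → ℝ := fun e => phi (1 / 2) (χ (g e)) with hp
        have hp0 : ∀ e, 0 ≤ p e := fun e => phi_nonneg (by norm_num) le_rfl (neg_one_le_re χ _)
        have hp1 : ∀ e, p e ≤ 1 := fun e => phi_le_one (by norm_num) (re_le_one χ _)
        set X : Ω → ℝ := fun o => ∏ e ∈ H o, p e with hX
        have hX0 : ∀ o, 0 ≤ X o := fun o => prod_nonneg fun e _ => hp0 e
        have hXeq : ∀ o, ∏ e, phi (1 / 2) (χ (if e ∈ H o then g e else 0)) = X o := by
          intro o
          rw [← prod_subset (subset_univ (H o))]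
          · exact prod_congr rfl fun e he => by rw [if_pos he]
          · intro e _ he; simp [he, phi]
        simp only [hXeq]
        have hgm := Real.geom_mean_le_arith_mean_weighted (univ : Finset Ω) w (fun o => c o * X o)
          (fun o _ => hw o) hsum (fun o _ => mul_nonneg (hc o).le (hX0 o))
        refine le_trans ?_ (hgm.trans (le_of_eq (sum_congr rfl fun o _ => by ring)))
        rw [prod_congr rfl fun o _ => Real.mul_rpow (z := w o) (hc o).le (hX0 o), prod_mul_distrib]
        refine le_trans ?_ (le_mul_of_one_le_left (prod_nonneg fun o _ => Real.rpow_nonneg (hX0 o) _) hc1)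
        have hswap : ∏ o, X o ^ w o = ∏ e, p e ^ (∑ o ∈ univ.filter (fun o => e ∈ H o), w o) := by
          rw [prod_congr rfl fun e _ => Real.rpow_sum_of_nonneg (hp0 e) fun o _ => hw o]
          simp only [hX, prod_filter]
          rw [prod_comm]
          refine prod_congr rfl fun o _ => ?_
          rw [← Real.finsetProd_rpow _ _ fun e _ => hp0 e, prod_ite_mem, univ_inter]
        rw [hswap]
        refine prod_le_prod (fun e _ => norm_nonneg _) fun e _ => ?_
        refine le_trans (le_of_eq ?_) (Real.rpow_le_rpow_of_exponent_ge' (hp0 e) (hp1 e)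
          (sum_nonneg fun o _ => hw o) (hf e))
        rw [← Real.sqrt_eq_rpow, hp]; dsimp only; rw [← norm_sq_half, Real.sqrt_sq (norm_nonneg _)]

variable {k : ℕ}

/-- The atom of the binary sum of `v` over `T` modulo `2 ^ l`. -/
def atomB (l : ℕ) (v : Fin k → ℤ) (T : Finset (Fin k)) (x : ZMod (2 ^ l)) : ℝ :=
  bp (fun c => if c ∈ T then (v c : ZMod (2 ^ l)) else 0) x

theorem atomB_mono (l : ℕ) (v : Fin k → ℤ) {T T' : Finset (Fin k)} (hT : T ⊆ T') (M : ℝ)
    (h : ∀ x, atomB l v T x ≤ M) (x : ZMod (2 ^ l)) : atomB l v T' x ≤ M := by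
  classical
  set K := (Fin k → Bool)
  set sT : K → ZMod (2 ^ l) := fun b => ∑ c, if b c then (if c ∈ T then (v c : ZMod (2 ^ l)) else 0) else 0
    with hsT
  set sR : K → ZMod (2 ^ l) := fun b => ∑ c, if b c then (if c ∈ T' \ T then (v c : ZMod (2 ^ l)) else 0) else 0
    with hsR
  have hsplit : ∀ b : K, (∑ c, if b c then (if c ∈ T' then (v c : ZMod (2 ^ l)) else 0) else 0)
      = sT b + sR b := by
    intro b
    simp only [hsT, hsR, ← sum_add_distrib]
    refine sum_congr rfl fun c _ => ?_
    by_cases h1 : c ∈ T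
    · simp [h1, hT h1]
    · by_cases h2 : c ∈ T' <;> simp [h1, h2]
  let mg : K × K → K × K := fun p =>
    (fun c => if c ∈ T then p.1 c else p.2 c, fun c => if c ∈ T then p.2 c else p.1 c)
  have hmg : Function.Involutive mg := by
    intro p
    refine Prod.ext (funext fun c => ?_) (funext fun c => ?_) <;> by_cases hc : c ∈ T <;> simp [mg, hc]
  have hT1 : ∀ p, sT (mg p).1 = sT p.1 := fun p => sum_congr rfl fun c _ => by
    by_cases hc : c ∈ T <;> simp [mg, hc]
  have hR1 : ∀ p, sR (mg p).1 = sR p.2 := fun p => sum_congr rfl fun c _ => by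
    by_cases hc : c ∈ T <;> simp [mg, hc]
  have key : (2 : ℝ) ^ k * ∑ b : K, (if sT b + sR b = x then (1 : ℝ) else 0)
      = ∑ b₀ : K, ∑ b : K, (if sT b = x - sR b₀ then (1 : ℝ) else 0) := by
    rw [sum_comm, ← Fintype.sum_prod_type (f := fun p : K × K => if sT p.1 = x - sR p.2 then (1 : ℝ) else 0)]
    rw [Fintype.sum_congr _ (fun p : K × K => if sT (mg p).1 + sR (mg p).1 = x then (1 : ℝ) else 0)
      fun p => by rw [hT1, hR1]; simp only [eq_sub_iff_add_eq]]
    rw [hmg.bijective.sum_comp (fun p : K × K => if sT p.1 + sR p.1 = x then (1 : ℝ) else 0),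
      Fintype.sum_prod_type, mul_sum]
    refine sum_congr rfl fun b _ => ?_
    trans ∑ _y : K, (if sT b + sR b = x then (1 : ℝ) else 0)
    · rw [Finset.sum_const, nsmul_eq_mul]
      simp [K]
    · exact sum_congr rfl fun y _ => by congr
  have hle : ∑ b₀ : K, ∑ b : K, (if sT b = x - sR b₀ then (1 : ℝ) else 0) ≤ 2 ^ k * (2 ^ k * M) := by
    refine (sum_le_card_nsmul _ _ (2 ^ k * M) fun b₀ _ => ?_).trans (le_of_eq (by simp [K]))
    have := h (x - sR b₀)
    rw [atomB, bp, div_le_iff₀ (by positivity), Fintype.card_fin] at this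
    linarith
  rw [atomB, bp, div_le_iff₀ (by positivity), Fintype.card_fin]
  simp only [hsplit]
  rw [← key] at hle
  have := le_of_mul_le_mul_left hle (by positivity)
  linarith

/-- The parity of a row coordinate. -/
def par (x : Row k) (c : Fin k) : ZMod 2 := (ival (x c) : ZMod 2)

/-- The sign with parity bit `b` and sign bit `s`. -/
def toS (p : Bool × Bool) : SignType := if p.1 then (if p.2 then -1 else 1) else 0

theorem sum_half (F : Row k → ℝ) :
    ∑ x : Row k, fw (fun _ => 1 / 2) x * F x
      = (∑ p : Fin k → Bool × Bool, F (fun c => toS (p c))) / 4 ^ k := by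
  classical
  have hw : ∀ a : SignType, wt (1 / 2) a = ∑ p : Bool × Bool, (if toS p = a then (1 / 4 : ℝ) else 0) := by
    intro a
    cases a <;> simp [Fintype.sum_prod_type, toS, wt] <;> norm_num
  have hfw : ∀ x : Row k, fw (fun _ => 1 / 2) x
      = ∑ p : Fin k → Bool × Bool, (if (fun c => toS (p c)) = x then (1 / 4 : ℝ) ^ k else 0) := by
    intro x
    simp only [fw, hw, Fintype.prod_sum, Fintype.prod_ite_zero, prod_const, card_univ, Fintype.card_fin,
      funext_iff]
  simp only [hfw, sum_mul]
  rw [sum_comm, sum_div]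
  refine sum_congr rfl fun p _ => ?_
  simp only [ite_mul, zero_mul, sum_ite_eq, mem_univ, if_true]
  rw [one_div_pow]; ring

/-- The core row bound: pivot parities are forced, and the signs outside are anticoncentrated. -/
theorem row_core (i : ℕ) (v : Fin k → ℤ) {d : ℕ} (C : Fin d ↪ Fin k) (B : Fin d → Fin k → ZMod 2)
    (hB : ∀ l l', B l (C l') = if l = l' then 1 else 0) (r : Fin d → ZMod 2)
    (a : (Fin k → ZMod 2) → ZMod (2 * 2 ^ i)) (M : Finset (Fin k) → ℝ)
    (hM : ∀ T ⊆ (univ : Finset (Fin k)) \ univ.map C, ∀ x, atomB i v T x ≤ M T) :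
    rowPr (1 / 2) (fun x : Row k => (∀ l, ∑ c, B l c * par x c = r l) ∧
        ((dot v x : ℤ) : ZMod (2 * 2 ^ i)) = a (fun c => par x c))
      ≤ (∑ T ∈ ((univ : Finset (Fin k)) \ univ.map C).powerset, M T) / 2 ^ k := by
  classical
  set N := (univ : Finset (Fin k)) \ univ.map C with hN
  set q : (Fin k → Bool) → (Fin k → ZMod 2) := fun b c => if b c then 1 else 0 with hq
  set ok : (Fin k → Bool) → Prop := fun b => ∀ l, ∑ c, B l c * q b c = r l with hok
  set supp : (Fin k → Bool) → Finset (Fin k) := fun b => univ.filter fun c => b c = true with hsupp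
  have hpar : ∀ b s : Fin k → Bool, (fun c => par (fun c => toS (b c, s c)) c) = q b := by
    intro b s; funext c
    cases hb : b c <;> cases hs : s c <;>
      simp [par, toS, hq, hb, hs, ival, show (-1 : ZMod 2) = 1 from by decide]
  have hdot : ∀ b s : Fin k → Bool, dot v (fun c => toS (b c, s c))
      = (∑ c, if b c then v c else 0) - 2 * ∑ c, (if s c then (if c ∈ supp b then v c else 0) else 0) := by
    intro b s
    simp only [dot, mul_sum, ← sum_sub_distrib, hsupp, mem_filter, mem_univ, true_and]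
    refine sum_congr rfl fun c _ => ?_
    cases hb : b c <;> cases hs : s c <;> simp [toS, ival]; ring
  have hM0 : ∀ T ⊆ N, 0 ≤ M T := fun T hT => (bp_nonneg _ _).trans (hM T hT 0)
  have hfix : ∀ b, ∑ s : Fin k → Bool,
      (if ok b ∧ ((dot v (fun c => toS (b c, s c)) : ℤ) : ZMod (2 * 2 ^ i)) = a (q b) then (1 : ℝ) else 0)
      ≤ if ok b then 2 ^ k * M (supp b ∩ N) else 0 := by
    intro b
    by_cases hb : ok b
    swap
    · rw [if_neg hb]; exact le_of_eq (sum_eq_zero fun s _ => if_neg fun h => hb h.1)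
    rw [if_pos hb]
    by_cases hs : ∃ s₁ : Fin k → Bool, ((dot v (fun c => toS (b c, s₁ c)) : ℤ) : ZMod (2 * 2 ^ i)) = a (q b)
    swap
    · push Not at hs
      exact le_trans (le_of_eq (sum_eq_zero fun s _ => if_neg fun h => hs s h.2))
        (mul_nonneg (by positivity) (hM0 _ inter_subset_right))
    obtain ⟨s₁, hs₁⟩ := hs
    set β : (Fin k → Bool) → ℤ := fun s => ∑ c, (if s c then (if c ∈ supp b then v c else 0) else 0)
    have hat := atomB_mono i v (inter_subset_left : supp b ∩ N ⊆ supp b) _ (hM _ inter_subset_right)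
      ((β s₁ : ℤ) : ZMod (2 ^ i))
    rw [atomB, bp, div_le_iff₀ (by positivity), Fintype.card_fin] at hat
    refine le_trans (sum_le_sum fun s _ => ?_) (hat.trans (le_of_eq (mul_comm _ _)))
    by_cases h : ((dot v (fun c => toS (b c, s c)) : ℤ) : ZMod (2 * 2 ^ i)) = a (q b)
    · have h2 : ((β s : ℤ) : ZMod (2 ^ i)) = ((β s₁ : ℤ) : ZMod (2 ^ i)) := by
        have h3 := h.trans hs₁.symm
        rw [hdot, hdot] at h3
        push_cast at h3
        rw [← sub_eq_zero, ← Int.cast_sub, ← intCast_two_mul_eq_zero]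
        simp only [β] at *
        push_cast
        linear_combination -h3
      rw [if_pos ⟨hb, h⟩, if_pos]
      rw [← h2]
      simp only [β, Int.cast_sum]
      refine sum_congr rfl fun c _ => ?_
      split_ifs <;> simp
    · rw [if_neg fun h' => h h'.2]; split <;> norm_num
  have hinj : Set.InjOn (fun b => supp b ∩ N) (univ.filter ok : Finset (Fin k → Bool)) := by
    intro b hb b' hb' h
    simp only [coe_filter, mem_univ, true_and, Set.mem_ofPred_eq] at hb hb'
    have hout : ∀ c ∈ N, b c = b' c := by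
      intro c hc
      have := congrArg (fun S : Finset (Fin k) => c ∈ S) h
      simp only [mem_inter, hc, and_true, hsupp, mem_filter, mem_univ, true_and] at this
      exact Bool.eq_iff_iff.2 (by rw [this])
    have hp : ∀ (b : Fin k → Bool) l, ok b → q b (C l) = r l - ∑ c ∈ N, B l c * q b c := by
      intro b l hb
      rw [← hb l, ← sum_sdiff (subset_univ (univ.map C)), ← hN, add_sub_cancel_left, sum_map]
      simp [hB]
    funext c
    by_cases hc : c ∈ N
    · exact hout c hc
    · obtain ⟨l, -, rfl⟩ := mem_map.1 (show c ∈ univ.map C by simpa [hN] using hc)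
      have h1 : q b (C l) = q b' (C l) := by
        rw [hp b l hb, hp b' l hb']
        congr 1
        exact sum_congr rfl fun c hc => by simp [hq, hout c hc]
      simp only [hq] at h1
      revert h1
      cases b (C l) <;> cases b' (C l) <;> simp
  have hconv : rowPr (1 / 2) (fun x : Row k => (∀ l, ∑ c, B l c * par x c = r l) ∧
      ((dot v x : ℤ) : ZMod (2 * 2 ^ i)) = a (fun c => par x c))
      = (∑ b : Fin k → Bool, ∑ s : Fin k → Bool,
        (if ok b ∧ ((dot v (fun c => toS (b c, s c)) : ℤ) : ZMod (2 * 2 ^ i)) = a (q b) then (1 : ℝ) else 0))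
        / 4 ^ k := by
    rw [← Fintype.sum_prod_type'
      (f := fun b s : Fin k → Bool =>
        (if ok b ∧ ((dot v (fun c => toS (b c, s c)) : ℤ) : ZMod (2 * 2 ^ i)) = a (q b) then (1 : ℝ) else 0)),
      ← (Equiv.arrowProdEquivProdArrow (Fin k) (fun _ => Bool) (fun _ => Bool)).sum_comp]
    have h1 := sum_half (k := k) fun x => if (∀ l, ∑ c, B l c * par x c = r l) ∧
      ((dot v x : ℤ) : ZMod (2 * 2 ^ i)) = a (fun c => par x c) then (1 : ℝ) else 0
    simp only [mul_ite, mul_one, mul_zero] at h1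
    refine Eq.trans (by unfold rowPr; congr!) (h1.trans ?_)
    congr 1
    refine sum_congr rfl fun p _ => ?_
    have hp := hpar (fun c => (p c).1) (fun c => (p c).2)
    simp only [Prod.mk.eta] at hp
    simp only [hok, Equiv.arrowProdEquivProdArrow, Equiv.coe_fn_mk, Prod.mk.eta, ← hp]
  rw [hconv, show (4 : ℝ) ^ k = 2 ^ k * 2 ^ k by rw [← mul_pow]; norm_num, ← div_div]
  refine div_le_div_of_nonneg_right ?_ (by positivity)
  rw [div_le_iff₀ (by positivity)]
  refine (sum_le_sum fun b _ => hfix b).trans ?_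
  rw [← sum_filter, ← mul_sum, mul_comm]
  refine mul_le_mul_of_nonneg_right ?_ (by positivity)
  rw [← sum_image (f := M) hinj]
  refine sum_le_sum_of_subset_of_nonneg ?_ fun T hT _ => hM0 T (mem_powerset.1 hT)
  intro T hT
  obtain ⟨b, -, rfl⟩ := mem_image.1 hT
  exact mem_powerset.2 inter_subset_right

end

end Vale.Agent.P160.Rate2
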