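import Vale.Agent.P160.Rate.Transfer

/-!
The transfer to rows of laziness one half, summed over the outside coordinates.
-/

namespace Vale.Agent.P160.Rate2

open Finset Vale.Agent.P160.Rate

set_option linter.unusedSectionVars false

noncomputable section

variable {k m : ℕ}

/-- Weight of a matrix of lazy rows. -/
def mwt (R : Fin m → Row k) : ℝ := ∏ r, fw (fun _ => 1 / 2) (R r)

theorem mwt_nonneg (R : Fin m → Row k) : 0 ≤ mwt R :=
  prod_nonneg fun r _ => fw_nonneg (fun _ => by norm_num) (fun _ => by norm_num) _

theorem rfw_nonneg (x : Row k) : 0 ≤ fw (fun _ : Fin k => (1 / 2 : ℝ)) x :=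
  fw_nonneg (fun _ => by norm_num) (fun _ => by norm_num) x

theorem rowPr_nonneg (p : Row k → Prop) : 0 ≤ rowPr (1 / 2) p :=
  sum_nonneg fun x _ => by
    split
    · exact rfw_nonneg x
    · exact le_rfl

theorem rowPr_mono {p q : Row k → Prop} (h : ∀ x, p x → q x) :
    rowPr (1 / 2) p ≤ rowPr (1 / 2) q := by
  classical
  refine sum_le_sum fun x _ => ?_
  by_cases hp : p x
  · simp [hp, h x hp]
  · simp only [hp, if_false]
    split
    · exact rfw_nonneg x
    · exact le_rfl

theorem sum_rows {ι : Type*} [Fintype ι] [DecidableEq ι] (p : ι → Row k → Prop)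
    [∀ R : ι → Row k, Decidable (∀ r, p r (R r))] :
    ∑ R : ι → Row k, (if ∀ r, p r (R r) then ∏ r, fw (fun _ => (1 / 2 : ℝ)) (R r) else 0)
      = ∏ r, rowPr (1 / 2) (p r) := by
  unfold rowPr
  rw [Fintype.prod_sum]
  refine sum_congr rfl fun R _ => ?_
  by_cases h : ∀ r, p r (R r)
  · rw [if_pos h]
    exact prod_congr rfl fun r _ => by rw [if_pos (h r)]
  · rw [if_neg h]
    obtain ⟨r, hr⟩ := not_forall.1 h
    exact (prod_eq_zero (mem_univ r) (by rw [if_neg hr])).symm

open Classical in
/-- The expected kernel. -/
def kSum (P : ℕ) [NeZero P] (v : Fin k → ℤ) (m : ℕ) : ℝ :=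
  ∑ R : Fin m → Row k, if ∀ r, (P : ℤ) ∣ dot v (R r) then mwt R * solCard P (aug P v R) else 0

open Classical in
/-- The probability that all rows are divisible and the parity kernel has dimension `d`. -/
def dSum (P : ℕ) (v : Fin k → ℤ) (m d : ℕ) : ℝ :=
  ∑ R : Fin m → Row k,
    if (∀ r, (P : ℤ) ∣ dot v (R r)) ∧ Module.finrank (ZMod 2) (kerW P v R) = d then mwt R else 0

theorem kSum_le (i : ℕ) (hi : 1 ≤ i) (v : Fin k → ℤ) (i₀ : Fin k) (hv : (v i₀ : ZMod 2) ≠ 0)
    (m : ℕ) :
    kSum (2 ^ i) v m ≤ ∑ d ∈ Icc 1 (k + 1), ((2 : ℝ) ^ i) ^ d * dSum (2 ^ i) v m d := by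
  classical
  unfold kSum dSum
  simp only [mul_sum]
  rw [sum_comm]
  refine sum_le_sum fun R _ => ?_
  by_cases hR : ∀ r, ((2 ^ i : ℕ) : ℤ) ∣ dot v (R r)
  · rw [if_pos hR]
    set d := Module.finrank (ZMod 2) (kerW (2 ^ i) v R) with hd
    have hd1 : 1 ≤ d := by
      have hmem := vbar_mem_kerW (dvd_pow_self 2 (by omega)) hR
      by_contra h
      have : kerW (2 ^ i) v R = ⊥ := Submodule.finrank_eq_zero.1 (by omega)
      rw [this, Submodule.mem_bot] at hmem
      exact vbar_ne_zero hv hmem
    have hd2 : d ≤ k + 1 := (Submodule.finrank_le _).trans (by simp)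
    rw [sum_eq_single_of_mem d (mem_Icc.2 ⟨hd1, hd2⟩)]
    · rw [if_pos ⟨hR, hd.symm⟩, mul_comm]
      refine mul_le_mul_of_nonneg_right ?_ (mwt_nonneg R)
      have := solCard_pow_le (aug (2 ^ i) v R) i hi
      rw [solCard_two, ← hd] at this
      calc (solCard (2 ^ i) (aug (2 ^ i) v R) : ℝ) ≤ (((2 ^ d) ^ i : ℕ) : ℝ) := by exact_mod_cast this
        _ = ((2 : ℝ) ^ i) ^ d := by push_cast; rw [← pow_mul, ← pow_mul, mul_comm]
    · intro b _ hb
      rw [if_neg fun h => hb (hd ▸ h.2.symm), mul_zero]
  · rw [if_neg hR]
    exact sum_nonneg fun d _ => mul_nonneg (by positivity) (by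
      rw [if_neg fun h => hR h.1])

theorem sum_fw_curry (F : (Fin m → Row k) → ℝ) :
    ∑ x : Fin m × Fin k → SignType, fw (fun _ => 1 / 2) x * F (fun r c => x (r, c))
      = ∑ R : Fin m → Row k, mwt R * F R := by
  rw [← (Equiv.curry (Fin m) (Fin k) SignType).sum_comp]
  refine sum_congr rfl fun x _ => ?_
  congr 1
  · simp only [fw, mwt, Equiv.curry_apply, Function.curry]
    rw [Fintype.prod_prod_type]

/-- The linear transfer: sum over the outside coordinates modulo `2 * P`, equations modulo `P`. -/
theorem sum_pr_linear_le (P : ℕ) [NeZero P] (v : Fin k → ℤ) :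
    ∑ z : Fin m → ZMod (2 * P), pr (fun _ => 1 / 2)
        (fun e => if e ∈ univ.map (jkEdge (m := m) (k := k)) then gL P (joinVec v z) e else 0) 0
      ≤ 2 ^ m * (P : ℝ) ^ m / (P : ℝ) ^ k * kSum P v m := by
  classical
  have hP : (0 : ℝ) < P := by exact_mod_cast Nat.pos_of_ne_zero (NeZero.ne P)
  have h1 : ∀ z : Fin m → ZMod (2 * P), pr (fun _ => 1 / 2)
      (fun e => if e ∈ univ.map (jkEdge (m := m) (k := k)) then gL P (joinVec v z) e else 0) 0
      = ∑ x : Fin m × Fin k → SignType,
          if tot (fun a => fun i => ((ev (joinVec v z) (jkEdge a) i : ℤ) : ZMod P)) x = 0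
          then fw (fun _ => 1 / 2) x else 0 := by
    intro z
    rw [pr_embed jkEdge _ _ fun e he => if_neg he]
    refine sum_congr rfl fun x _ => ?_
    have : (fun a => if jkEdge a ∈ univ.map (jkEdge (m := m) (k := k)) then gL P (joinVec v z) (jkEdge a) else 0)
        = fun a => fun i => ((ev (joinVec v z) (jkEdge a) i : ℤ) : ZMod P) := by
      funext a i; simp [gL]
    rw [this]
  simp_rw [h1]
  rw [sum_comm]
  set F : (Fin m → Row k) → ℝ := fun R =>
    if ∀ r, (P : ℤ) ∣ dot v (R r) then 2 ^ m * (P : ℝ) ^ m / (P : ℝ) ^ k * solCard P (aug P v R) else 0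
    with hF
  calc _ ≤ ∑ x : Fin m × Fin k → SignType, fw (fun _ => 1 / 2) x * F (fun r c => x (r, c)) := by
        refine sum_le_sum fun x _ => ?_
        rw [← sum_filter, sum_const, nsmul_eq_mul, mul_comm]
        refine mul_le_mul_of_nonneg_left ?_ (fw_nonneg (fun _ => by norm_num) (fun _ => by norm_num) x)
        simp only [hF]
        split_ifs with hR
        · set A : Fin m → Fin k → ℤ := fun r c => ival (x (r, c))
          set D := univ.filter fun d : Fin m → ZMod P => ∀ c, ∑ r, (A r c : ZMod P) * d r = 0 with hD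
          have hD' := card_transpose_sol P A
          rw [Fintype.card_fin] at hD'
          replace hD' : (D.card : ℝ) * (P : ℝ) ^ k = (P : ℝ) ^ m * solCard P A := by
            convert hD' using 3
            rw [hD]; congr 1; ext; simp
          have hle : (solCard P A : ℝ) ≤ solCard P (aug P v fun r c => x (r, c)) := by
            exact_mod_cast solCard_kerR_le P v (fun r c => x (r, c))
          let red : (Fin m → ZMod (2 * P)) → (Fin m → ZMod P) := fun z r => (((z r).val : ℤ) : ZMod P)
          have hcount : (univ.filter fun z : Fin m → ZMod (2 * P) =>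
              tot (fun a => fun i => ((ev (joinVec v z) (jkEdge a) i : ℤ) : ZMod P)) x = 0).card
              ≤ D.card * 2 ^ m := by
            refine le_trans ?_ (Nat.mul_le_mul_left D.card (le_refl _))
            set Z := univ.filter fun z : Fin m → ZMod (2 * P) =>
              tot (fun a => fun i => ((ev (joinVec v z) (jkEdge a) i : ℤ) : ZMod P)) x = 0
            have himg : (Z.image red).card ≤ D.card := by
              refine le_trans (card_le_card (t := univ.filter fun w : Fin m → ZMod P =>
                ∀ c, ∑ r, (A r c : ZMod P) * w r = 0) ?_) le_rfl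
              intro w hw
              obtain ⟨z, hz, rfl⟩ := mem_image.1 hw
              simp only [Z, mem_filter, mem_univ, true_and] at hz ⊢
              intro c
              have := congrFun hz (Sum.inr c)
              rw [tot_jk_snd] at this
              exact this
            have hfib : ∀ w ∈ Z.image red, (Z.filter fun z => red z = w).card ≤ 2 ^ m := by
              intro w _
              refine le_trans (card_le_card_of_injOn (t := (univ : Finset (Fin m → Fin 2)))
                (fun z r => (⟨(z r).val / P, by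
                  have := ZMod.val_lt (z r)
                  rw [Nat.div_lt_iff_lt_mul (Nat.pos_of_ne_zero (NeZero.ne P))]
                  omega⟩ : Fin 2)) (fun _ _ => mem_coe.2 (mem_univ _)) ?_) (by simp)
              intro z hz z' hz' h
              simp only [coe_filter, Set.mem_ofPred_eq] at hz hz'
              funext r
              apply ZMod.val_injective
              have h2 := congrArg Fin.val (congrFun h r)
              simp only at h2
              have h3 := congrFun (hz.2.trans hz'.2.symm) r
              simp only [red, Int.cast_natCast, ZMod.natCast_eq_natCast_iff'] at h3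
              rw [← Nat.div_add_mod (z r).val P, ← Nat.div_add_mod (z' r).val P, h2, h3]
            calc Z.card ≤ 2 ^ m * (Z.image red).card := card_le_mul_card_image Z _ hfib
              _ ≤ D.card * 2 ^ m := by rw [mul_comm]; exact Nat.mul_le_mul_right _ himg
          have hc : ((univ.filter fun z : Fin m → ZMod (2 * P) =>
              tot (fun a => fun i => ((ev (joinVec v z) (jkEdge a) i : ℤ) : ZMod P)) x = 0).card : ℝ)
              ≤ D.card * 2 ^ m := by exact_mod_cast hcount
          refine hc.trans ?_
          have hD2 : (D.card : ℝ) = (P : ℝ) ^ m * solCard P A / (P : ℝ) ^ k := by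
            rw [← hD']; field_simp
          rw [hD2, show ∀ a : ℝ, 2 ^ m * (P : ℝ) ^ m / (P : ℝ) ^ k * a = 2 ^ m * ((P : ℝ) ^ m * a / (P : ℝ) ^ k)
            from fun a => by ring, mul_comm]
          gcongr
        · have : (univ.filter fun z : Fin m → ZMod (2 * P) =>
              tot (fun a => fun i => ((ev (joinVec v z) (jkEdge a) i : ℤ) : ZMod P)) x = 0) = ∅ := by
            refine filter_eq_empty_iff.2 fun z _ hz => hR fun r => ?_
            have := congrFun hz (Sum.inl r)
            rw [tot_jk_fst] at this
            exact (ZMod.intCast_zmod_eq_zero_iff_dvd _ P).1 this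
          rw [this]; simp
    _ = ∑ R : Fin m → Row k, mwt R * F R := sum_fw_curry F
    _ = _ := by
        unfold kSum
        rw [mul_sum]
        refine sum_congr rfl fun R _ => ?_
        simp only [hF]
        split_ifs <;> ring

theorem pr_two_zero_le (i : ℕ) {κ : Type*} [Fintype κ] [DecidableEq κ] (u : κ → ℤ) (a : ℤ)
    (ha : (a : ZMod 2) ≠ 0) :
    (∑ x : κ → SignType, if ((2 * a * ∑ b, ival (x b) * u b : ℤ) : ZMod (2 ^ (i + 1))) = 0
        then fw (fun _ => (1 / 2 : ℝ)) x else 0)
      ≤ 2 * pr (fun _ => 1 / 2) (fun b => (u b : ZMod (2 ^ (i + 1)))) 0 := by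
  classical
  have hcop : IsCoprime ((2 : ℤ) ^ i) a := by
    refine IsCoprime.pow_left ?_
    have h2 : ¬ (2 : ℤ) ∣ a := fun h => ha ((ZMod.intCast_zmod_eq_zero_iff_dvd _ 2).2 h)
    exact Int.prime_two.coprime_iff_not_dvd.2 h2
  set g : κ → ZMod (2 ^ (i + 1)) := fun b => (u b : ZMod (2 ^ (i + 1))) with hg
  calc _ ≤ pr (fun _ => 1 / 2) g 0 + pr (fun _ => 1 / 2) g (((2 : ℤ) ^ i : ℤ) : ZMod (2 ^ (i + 1))) := by
        unfold pr
        rw [← sum_add_distrib]
        refine sum_le_sum fun x _ => ?_
        have hw : 0 ≤ fw (fun _ : κ => (1 / 2 : ℝ)) x :=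
          fw_nonneg (fun _ => by norm_num) (fun _ => by norm_num) x
        have htot : tot g x = ((∑ b, ival (x b) * u b : ℤ) : ZMod (2 ^ (i + 1))) := by
          simp [tot, hg, zsmul_eq_mul]
        by_cases hx : ((2 * a * ∑ b, ival (x b) * u b : ℤ) : ZMod (2 ^ (i + 1))) = 0
        · rw [if_pos hx]
          rw [ZMod.intCast_zmod_eq_zero_iff_dvd] at hx
          push_cast at hx
          rw [pow_succ, mul_comm ((2 : ℤ) ^ i), mul_assoc] at hx
          obtain ⟨d, hd⟩ := hcop.dvd_of_dvd_mul_left ((mul_dvd_mul_iff_left two_ne_zero).1 hx)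
          rcases Int.even_or_odd d with ⟨e, he⟩ | ⟨e, he⟩
          · have : tot g x = 0 := by
              rw [htot, ZMod.intCast_zmod_eq_zero_iff_dvd]
              exact ⟨e, by rw [hd, he]; push_cast; rw [pow_succ]; ring⟩
            rw [if_pos this]; split <;> linarith
          · have : tot g x = (((2 : ℤ) ^ i : ℤ) : ZMod (2 ^ (i + 1))) := by
              rw [htot, ZMod.intCast_eq_intCast_iff_dvd_sub]
              exact ⟨-e, by rw [hd, he]; push_cast; rw [pow_succ]; ring⟩
            rw [if_pos this]; split <;> linarith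
        · rw [if_neg hx]; split <;> split <;> linarith
    _ ≤ _ := by
        rw [two_mul]
        exact add_le_add le_rfl (pr_le_zero _ (fun _ => by norm_num) (fun _ => by norm_num))

/-- The quadratic transfer: sum over the outside coordinates. -/
theorem sum_pr_quad_le (i : ℕ) (v : Fin k → ℤ) (i₀ : Fin k) (hv : (v i₀ : ZMod 2) ≠ 0) :
    ∑ z : Fin m → ZMod (2 ^ (i + 1)), pr (fun _ => 1 / 2)
        (fun e => if e ∈ univ.map (allEdge (m := m) i₀) then gQ (2 ^ (i + 1)) (joinVec v z) e else 0) 0
      ≤ 2 * pr (fun _ => 1 / 2) (fun b : {b : Fin k // b ≠ i₀} => (v b.1 : ZMod (2 ^ (i + 1)))) 0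
        * (4 * ((2 ^ (i + 1) : ℕ) : ℝ) ^ m / ((2 ^ (i + 1) : ℕ) : ℝ) ^ (k + 1))
        * kSum (2 ^ (i + 1)) v m := by
  classical
  set P := 2 ^ (i + 1) with hPdef
  haveI : NeZero (P * P / 2) := neZero_half i
  have hP : (0 : ℝ) < (P : ℝ) := by positivity
  have h1 : ∀ z : Fin m → ZMod P, pr (fun _ => 1 / 2)
      (fun e => if e ∈ univ.map (allEdge (m := m) i₀) then gQ P (joinVec v z) e else 0) 0
      = ∑ x : (Fin m × Fin k) ⊕ {b : Fin k // b ≠ i₀} → SignType,
          if tot (fun a => gQ P (joinVec v z) (allEdge i₀ a)) x = 0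
          then fw (fun _ => 1 / 2) x else 0 := by
    intro z
    rw [pr_embed (allEdge i₀) _ _ fun e he => if_neg he]
    refine sum_congr rfl fun x _ => ?_
    have : (fun a => if allEdge i₀ a ∈ univ.map (allEdge (m := m) i₀) then gQ P (joinVec v z) (allEdge i₀ a) else 0)
        = fun a => gQ P (joinVec v z) (allEdge i₀ a) := by
      funext a; simp
    rw [this]
  refine le_of_eq_of_le (sum_congr rfl fun z _ => h1 z) ?_
  rw [sum_comm]
  set B : ℝ := 4 * (P : ℝ) ^ m / (P : ℝ) ^ (k + 1) with hB
  set F : (Fin m → Row k) → ℝ := fun R =>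
    if ∀ r, (P : ℤ) ∣ dot v (R r) then B * solCard P (aug P v R) else 0 with hF
  set Gs : ({b : Fin k // b ≠ i₀} → SignType) → ℝ := fun y =>
    if ((2 * v i₀ * ∑ b, ival (y b) * v b.1 : ℤ) : ZMod P) = 0
    then fw (fun _ => (1 / 2 : ℝ)) y else 0 with hGs
  have hGs0 : ∀ y, 0 ≤ Gs y := fun y => by
    simp only [hGs]
    split
    · exact fw_nonneg (fun _ => by norm_num) (fun _ => by norm_num) y
    · exact le_rfl
  have hB0 : 0 ≤ B := by positivity
  have hF0 : ∀ R, 0 ≤ F R := fun R => by
    simp only [hF]
    split
    · positivity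
    · exact le_rfl
  calc _ ≤ ∑ x : (Fin m × Fin k) ⊕ {b : Fin k // b ≠ i₀} → SignType,
        fw (fun _ => 1 / 2) (fun a => x (Sum.inl a)) * F (fun r c => x (Sum.inl (r, c))) *
          Gs (fun b => x (Sum.inr b)) := by
        refine sum_le_sum fun x _ => ?_
        set y := fun b => x (Sum.inr b)
        have hwx : fw (fun _ => (1 / 2 : ℝ)) x
            = fw (fun _ => (1 / 2 : ℝ)) (fun a => x (Sum.inl a)) * fw (fun _ => (1 / 2 : ℝ)) y := by
          simp only [fw, Fintype.prod_sum_type, y]
        rw [← sum_filter, sum_const, nsmul_eq_mul]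
        set Z := univ.filter fun z : Fin m → ZMod P => tot (fun a => gQ P (joinVec v z) (allEdge i₀ a)) x = 0
        rcases Z.eq_empty_or_nonempty with he | ⟨z₀, hz₀⟩
        · rw [he]
          simp only [card_empty, Nat.cast_zero, zero_mul]
          exact mul_nonneg (mul_nonneg (fw_nonneg (fun _ => by norm_num) (fun _ => by norm_num) _) (hF0 _))
            (hGs0 _)
        · simp only [Z, mem_filter, mem_univ, true_and] at hz₀
          have hdvd : ∀ r, (P : ℤ) ∣ dot v (fun c => x (Sum.inl (r, c))) := fun r => by
            have := congrFun (congrArg Prod.fst hz₀) (Sum.inl r)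
            rw [tot_all_inl] at this
            exact (ZMod.intCast_zmod_eq_zero_iff_dvd _ P).1 this
          have hstar : ((2 * v i₀ * ∑ b, ival (y b) * v b.1 : ℤ) : ZMod P) = 0 := by
            have h := congrArg (fun w : (Fin m ⊕ Fin k → ZMod P) × ZMod (P * P / 2) =>
              ∑ c, (v c : ZMod P) * w.1 (Sum.inr c)) hz₀
            simp only [tot_all_inr, Prod.fst_zero, Pi.zero_apply, mul_zero, sum_const_zero, mul_add,
              sum_add_distrib, mul_sum] at h
            rw [Finset.sum_comm] at h
            have hz : ∀ r : Fin m, ∑ c, (v c : ZMod P) *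
                ((ival (x (Sum.inl (r, c))) : ZMod P) * (((z₀ r).val : ℤ) : ZMod P)) = 0 := by
              intro r
              have h2 := (ZMod.intCast_zmod_eq_zero_iff_dvd _ P).2 (hdvd r)
              simp only [dot, Int.cast_sum, Int.cast_mul] at h2
              rw [show (0 : ZMod P) = (∑ c, (ival (x (Sum.inl (r, c))) : ZMod P) * (v c : ZMod P)) *
                (((z₀ r).val : ℤ) : ZMod P) by rw [h2, zero_mul], sum_mul]
              exact sum_congr rfl fun c _ => by ring
            rw [sum_eq_zero fun r _ => hz r, zero_add, sum_comm] at h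
            rw [← h]
            push_cast
            rw [mul_sum]
            refine sum_congr rfl fun b _ => ?_
            rw [← add_sum_erase _ _ (mem_univ i₀), if_pos rfl,
              sum_eq_single b.1]
            · rw [if_neg b.2, if_pos rfl]; simp only [y]; ring
            · intro c hc hcb
              simp [(mem_erase.1 hc).1, hcb]
            · intro hb
              exact absurd (mem_erase.2 ⟨b.2, mem_univ _⟩) hb
          simp only [hF, if_pos hdvd, hGs, if_pos hstar]
          rw [hwx]
          set R : Fin m → Row k := fun r c => x (Sum.inl (r, c))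
          have hcount : (Z.card : ℝ) ≤ B * solCard P (aug P v R) := by
            let M4 : Fin m → Option (Fin k) → ℤ := fun r o =>
              Option.elim o (4 * aug P v R r none) fun c => aug P v R r (some c)
            set D := univ.filter fun d : Fin m → ZMod P => ∀ o, ∑ r, (M4 r o : ZMod P) * d r = 0 with hD
            have hZD : Z.card ≤ D.card := by
              refine affine_card_le _ _ fun a b ha hb o => ?_
              cases o with
              | some c =>
                have h1 := congrFun (congrArg Prod.fst ha) (Sum.inr c)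
                have h2 := congrFun (congrArg Prod.fst hb) (Sum.inr c)
                rw [tot_all_inr] at h1 h2
                simp only [M4, Option.elim_some, aug, Pi.sub_apply, mul_sub, sum_sub_distrib,
                  Prod.fst_zero, Pi.zero_apply] at h1 h2 ⊢
                simp only [R]
                simp only [Int.cast_natCast, ZMod.natCast_zmod_val] at h1 h2
                linear_combination h1 - h2
              | none =>
                have h1 := congrArg Prod.snd ha
                have h2 := congrArg Prod.snd hb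
                rw [tot_all_snd, Prod.snd_zero, ZMod.intCast_zmod_eq_zero_iff_dvd] at h1 h2
                have h3 := dvd_sub h1 h2
                have hdot : ∀ r, dot v (fun c => x (Sum.inl (r, c))) = (P : ℤ) * aug P v R r none := by
                  intro r
                  simp only [aug, Option.elim_none, R]
                  rw [Int.mul_ediv_cancel' (hdvd r)]
                simp only [hdot] at h3
                have h4 : (((P * P / 2 : ℕ) : ℤ)) * 2 = (P : ℤ) * P := by
                  have : 2 ∣ P * P := dvd_mul_of_dvd_left (by rw [hPdef]; exact dvd_pow_self 2 (Nat.succ_ne_zero i)) _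
                  exact_mod_cast Nat.div_mul_cancel this
                set S : ℤ := ∑ r, (((a r).val : ℤ) - ((b r).val : ℤ)) * aug P v R r none
                have h5 : 2 * (P : ℤ) * S * 2 = (2 * ∑ r, ((a r).val : ℤ) * ((P : ℤ) * aug P v R r none)
                    + 2 * v i₀ * starSum v (fun b => x (Sum.inr b))
                    - (2 * ∑ r, ((b r).val : ℤ) * ((P : ℤ) * aug P v R r none)
                    + 2 * v i₀ * starSum v (fun b => x (Sum.inr b)))) * 2 := by
                  rw [add_sub_add_right_eq_sub, ← mul_sub, ← sum_sub_distrib]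
                  simp only [S, mul_sum, sum_mul]
                  exact sum_congr rfl fun r _ => by ring
                have h6 : (P : ℤ) * P ∣ (P : ℤ) * (4 * S) := by
                  rw [← h4, show (P : ℤ) * (4 * S) = 2 * (P : ℤ) * S * 2 by ring, h5]
                  exact mul_dvd_mul_right h3 2
                have h7 := (mul_dvd_mul_iff_left (by exact_mod_cast hP.ne' : (P : ℤ) ≠ 0)).1 h6
                rw [← ZMod.intCast_zmod_eq_zero_iff_dvd] at h7
                rw [← h7]
                simp only [M4, Option.elim_none, Pi.sub_apply, S, Int.cast_mul, Int.cast_sum, Int.cast_sub,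
                  Int.cast_natCast, Int.cast_ofNat, ZMod.natCast_zmod_val, mul_sum]
                exact sum_congr rfl fun r _ => by ring
            have hD' := card_transpose_sol P M4
            rw [Fintype.card_option, Fintype.card_fin, ← hD] at hD'
            have h4le : (solCard P M4 : ℝ) ≤ 4 * solCard P (aug P v R) := by
              exact_mod_cast solCard_four_le v R
            have hD2 : (D.card : ℝ) = (P : ℝ) ^ m * solCard P M4 / (P : ℝ) ^ (k + 1) := by
              rw [← hD']; field_simp
            refine le_trans (Nat.cast_le.2 hZD) ?_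
            rw [hD2, hB, show ∀ s : ℝ, 4 * (P : ℝ) ^ m / (P : ℝ) ^ (k + 1) * s = (P : ℝ) ^ m * (4 * s) / (P : ℝ) ^ (k + 1)
              from fun s => by ring]
            gcongr
          calc (Z.card : ℝ) * (fw (fun _ => 1 / 2) (fun a => x (Sum.inl a)) * fw (fun _ => 1 / 2) y)
              ≤ (B * solCard P (aug P v R)) * (fw (fun _ => 1 / 2) (fun a => x (Sum.inl a)) * fw (fun _ => 1 / 2) y) := by
                refine mul_le_mul_of_nonneg_right hcount (mul_nonneg ?_ ?_) <;>
                  exact fw_nonneg (fun _ => by norm_num) (fun _ => by norm_num) _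
            _ = _ := by ring
    _ = (∑ R : Fin m → Row k, mwt R * F R) * ∑ y, Gs y := by
        rw [← sum_fw_curry F, sum_mul_sum,
          ← (Equiv.sumArrowEquivProdArrow (Fin m × Fin k) {b : Fin k // b ≠ i₀} SignType).symm.sum_comp,
          Fintype.sum_prod_type]
        rfl
    _ ≤ (∑ R : Fin m → Row k, mwt R * F R)
          * (2 * pr (fun _ => 1 / 2) (fun b : {b : Fin k // b ≠ i₀} => (v b.1 : ZMod P)) 0) := by
        refine mul_le_mul_of_nonneg_left ?_ (sum_nonneg fun R _ => mul_nonneg (mwt_nonneg R) (hF0 R))
        exact pr_two_zero_le i (fun b : {b : Fin k // b ≠ i₀} => v b.1) (v i₀) hv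
    _ = _ := by
        rw [mul_comm, mul_assoc (2 * _)]
        congr 1
        unfold kSum
        rw [mul_sum]
        refine sum_congr rfl fun R _ => ?_
        simp only [hF, hB]
        split_ifs <;> ring

end

end Vale.Agent.P160.Rate2
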