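import Vale.Agent.P160.Rate2.Good
import Vale.Agent.P160.Rate2.Transfer

/-!
Row probabilities given a parity kernel, and the distribution of the kernel dimension.
-/

namespace Vale.Agent.P160.Rate2

open Finset Vale.Agent.P160.Rate

set_option linter.unusedSectionVars false

noncomputable section

variable {k m : ℕ}

/-- The row factor attached to a kernel of dimension `c + 1`. -/
def Phi (k i E₀ L σ u c : ℕ) (δ r : ℝ) : ℝ :=
  1 + 2 ^ E₀ * r ^ σ + δ + (2 + 2 ^ E₀) * min 1 (2 ^ σ * (3 / 4) ^ (u - (c + 1)))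
    + (2 + 2 ^ E₀) * 2 ^ (i + L) * (3 / 4) ^ (k - (c + 1))

theorem Phi_nonneg (k i E₀ L σ u c : ℕ) (δ r : ℝ) (hδ : 0 ≤ δ) (hr : 0 ≤ r) :
    0 ≤ Phi k i E₀ L σ u c δ r := by
  unfold Phi
  have : 0 ≤ min (1 : ℝ) (2 ^ σ * (3 / 4) ^ (u - (c + 1))) := le_min zero_le_one (by positivity)
  positivity

theorem dot_residue (i : ℕ) (v : Fin k → ℤ) (x : Row k) (h : ((2 ^ i : ℕ) : ℤ) ∣ dot v x) :
    ((dot v x : ℤ) : ZMod (2 * 2 ^ i))
      = (((if ((dot v x / ((2 ^ i : ℕ) : ℤ) : ℤ) : ZMod 2) = 0 then 0 else ((2 ^ i : ℕ) : ℤ)) : ℤ) : ZMod (2 * 2 ^ i)) := by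
  obtain ⟨a, ha⟩ := h
  have hdiv : dot v x / ((2 ^ i : ℕ) : ℤ) = a := by
    rw [ha]; exact Int.mul_ediv_cancel_left _ (by positivity)
  rw [hdiv, ZMod.intCast_eq_intCast_iff_dvd_sub]
  rcases Int.even_or_odd a with ⟨q, hq⟩ | ⟨q, hq⟩
  · rw [if_pos (by rw [ZMod.intCast_zmod_eq_zero_iff_dvd]; exact ⟨q, by rw [hq]; push_cast; ring⟩)]
    exact ⟨-q, by rw [ha, hq]; push_cast; ring⟩
  · rw [if_neg (by rw [ZMod.intCast_zmod_eq_zero_iff_dvd]; push_cast; omega)]
    exact ⟨-q, by rw [ha, hq]; push_cast; ring⟩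

theorem rowPr_or (p q : Row k → Prop) :
    rowPr (1 / 2) (fun x => p x ∨ q x) ≤ rowPr (1 / 2) p + rowPr (1 / 2) q := by
  classical
  unfold rowPr
  rw [← sum_add_distrib]
  refine sum_le_sum fun x _ => ?_
  have := rfw_nonneg x
  by_cases hp : p x <;> by_cases hq : q x <;> simp only [hp, hq, or_true, true_or, or_false, if_true, if_false] <;> linarith

/-- Both residues at the top level. -/
theorem row_two (i : ℕ) (v : Fin k → ℤ) {d : ℕ} (C : Fin d ↪ Fin k) (B : Fin d → Fin k → ZMod 2)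
    (hB : ∀ l l', B l (C l') = if l = l' then 1 else 0) (M : Finset (Fin k) → ℝ)
    (hM : ∀ T ⊆ (univ : Finset (Fin k)) \ univ.map C, ∀ x, atomB i v T x ≤ M T) :
    rowPr (1 / 2) (fun x : Row k => ((2 ^ i : ℕ) : ℤ) ∣ dot v x ∧ ∀ l, ∑ c, B l c * par x c = 0)
      ≤ 2 * ((∑ T ∈ ((univ : Finset (Fin k)) \ univ.map C).powerset, M T) / 2 ^ k) := by
  rw [two_mul]
  refine le_trans (rowPr_mono ?_) ((rowPr_or _ _).trans
    (add_le_add (row_core i v C B hB 0 (fun _ => ((0 : ℤ) : ZMod (2 * 2 ^ i))) M hM)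
      (row_core i v C B hB 0 (fun _ => (((2 ^ i : ℕ) : ℤ) : ZMod (2 * 2 ^ i))) M hM)))
  rintro x ⟨hd, hpar⟩
  have h := dot_residue i v x hd
  split_ifs at h
  · exact Or.inl ⟨fun l => by simpa using hpar l, h⟩
  · exact Or.inr ⟨fun l => by simpa using hpar l, h⟩

theorem psi_le (i E₀ L σ u c : ℕ) (δ r : ℝ) (v : Fin k → ℤ)
    (hu : u ≤ oddIn v univ) {d : ℕ} (C : Fin d ↪ Fin k) (hd : d ≤ c + 1) :
    (∑ T ∈ ((univ : Finset (Fin k)) \ univ.map C).powerset, Mb i E₀ L σ δ r v T) / 2 ^ k
      ≤ (1 / 2) ^ d * (Phi k i E₀ L σ u c δ r / 2 ^ i) := by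
  classical
  set N := (univ : Finset (Fin k)) \ univ.map C with hN
  have hdk : d ≤ k := by simpa using Fintype.card_le_of_embedding C
  have hNc : N.card = k - d := by
    rw [hN, card_sdiff_of_subset (subset_univ _)]; simp
  have ho : u - (c + 1) ≤ oddIn v N := by
    have h1 : oddIn v univ ≤ oddIn v N + d := by
      unfold oddIn
      calc _ ≤ (N.filter fun j => (v j : ZMod 2) ≠ 0).card + (univ.map C).card := by
            refine le_trans (card_le_card fun j hj => ?_) (card_union_le _ _)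
            simp only [mem_filter, mem_univ, true_and] at hj
            by_cases hjC : j ∈ univ.map C
            · exact mem_union_right _ hjC
            · exact mem_union_left _ (mem_filter.2 ⟨mem_sdiff.2 ⟨mem_univ _, hjC⟩, hj⟩)
        _ = _ := by simp
    omega
  have h := sum_Mb_le i E₀ L σ δ r v N (u - (c + 1)) ho
  rw [div_le_iff₀ (by positivity)]
  refine h.trans ?_
  have h34 : (3 / 4 : ℝ) ^ N.card ≤ (3 / 4) ^ (k - (c + 1)) :=
    pow_le_pow_of_le_one (by norm_num) (by norm_num) (by omega)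
  rw [show (1 / 2 : ℝ) ^ d * (Phi k i E₀ L σ u c δ r / 2 ^ i) * 2 ^ k
      = 2 ^ N.card * (Phi k i E₀ L σ u c δ r / 2 ^ i) by
    rw [hNc, show (2 : ℝ) ^ k = 2 ^ (k - d) * 2 ^ d by rw [← pow_add, Nat.sub_add_cancel hdk], one_div_pow]
    field_simp]
  refine mul_le_mul_of_nonneg_left ?_ (by positivity)
  rw [Phi, add_div _ ((2 + 2 ^ E₀) * 2 ^ (i + L) * (3 / 4 : ℝ) ^ (k - (c + 1)))]
  refine add_le_add le_rfl ?_
  rw [pow_add, show (2 + (2 : ℝ) ^ E₀) * (2 ^ i * 2 ^ L) * (3 / 4) ^ (k - (c + 1)) / 2 ^ i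
    = (2 + 2 ^ E₀) * 2 ^ L * (3 / 4) ^ (k - (c + 1)) by field_simp]
  gcongr

/-- The hypotheses on the block vector at level `i`. -/
structure Nice (i E₀ L u : ℕ) (δ r : ℝ) (v : Fin k → ℤ) : Prop where
  δ0 : 0 ≤ δ
  δ1 : δ ≤ 1
  r0 : 0 ≤ r
  r1 : r ≤ 1
  lam : ∀ w : ℂ, w ^ (2 ^ E₀) = 1 → w ≠ 1 → fb w ≤ r
  good : Good i E₀ L δ v
  odd : u ≤ oddIn v univ

theorem parEval_none_zero (P : ℕ) (v : Fin k → ℤ) (y : V2 k) (hy : y none = 0) (x : Row k) :
    parEval P v y x = ∑ c, y (some c) * par x c := by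
  simp [parEval, par, hy]

theorem pivots_some (d : ℕ) (W : Submodule (ZMod 2) (V2 k)) (hW : d ≤ Module.finrank (ZMod 2) W)
    (h0 : ∀ y ∈ W, y none = 0) :
    ∃ (C : Fin d ↪ Fin k) (b : Fin d → V2 k), (∀ l, b l ∈ W) ∧
      ∀ l l', b l (some (C l')) = if l = l' then 1 else 0 := by
  obtain ⟨C, b, hbW, hb⟩ := exists_pivots d W hW
  have hsome : ∀ l, ∃ i, C l = some i := by
    intro l
    cases hC : C l with
    | none =>
      have := hb l l
      rw [hC, h0 _ (hbW l), if_pos rfl] at this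
      exact absurd this zero_ne_one
    | some i => exact ⟨i, rfl⟩
  choose I hI using hsome
  have hIi : Function.Injective I := fun a a' h => C.injective (by rw [hI, hI, h])
  exact ⟨⟨I, hIi⟩, b, hbW, fun l l' => by simp [← hI, hb]⟩

/-- The row bound, uniform in the parity kernel. -/
theorem row_bound {i E₀ L u : ℕ} {δ r : ℝ} {v : Fin k → ℤ} (h : Nice i E₀ L u δ r v) (σ c : ℕ)
    (W : Submodule (ZMod 2) (V2 k)) (hW : c + 1 ≤ Module.finrank (ZMod 2) W) :
    rowPr (1 / 2) (fun x : Row k => ((2 ^ i : ℕ) : ℤ) ∣ dot v x ∧ ∀ w ∈ W, parEval (2 ^ i) v w x = 0)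
      ≤ (1 / 2) ^ c * (Phi k i E₀ L σ u c δ r / 2 ^ i) := by
  classical
  have hM : ∀ (S : Finset (Fin k)), ∀ T ⊆ S, ∀ x, atomB i v T x ≤ Mb i E₀ L σ δ r v T :=
    fun S T _ x => atom_le_Mb i E₀ L σ δ r h.δ0 h.δ1 h.r0 h.r1 h.lam v h.good T x
  by_cases h0 : ∀ y ∈ W, y none = 0
  · obtain ⟨C, b, hbW, hb⟩ := pivots_some (c + 1) W hW h0
    refine le_trans (rowPr_mono ?_) ((row_two i v C (fun l a => b l (some a)) hb _ (hM _)).trans ?_)
    · rintro x ⟨hd, hpar⟩
      refine ⟨hd, fun l => ?_⟩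
      rw [← parEval_none_zero (2 ^ i) v _ (h0 _ (hbW l))]
      exact hpar _ (hbW l)
    · refine (mul_le_mul_of_nonneg_left (psi_le i E₀ L σ u c δ r v h.odd C le_rfl) zero_le_two).trans (le_of_eq ?_)
      rw [pow_succ]; ring
  · push Not at h0
    obtain ⟨ws, hws, hwn⟩ := h0
    have hwn1 : ws none = 1 := (zmod2_cases _).resolve_left hwn
    obtain ⟨W₀, hW₀, hrk⟩ := exists_none_zero W
    obtain ⟨C, b, hbW, hb⟩ := pivots_some c W₀ (by omega) fun y hy => (hW₀ y hy).2
    set a : (Fin k → ZMod 2) → ZMod (2 * 2 ^ i) := fun p =>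
      (((if ∑ j, ws (some j) * p j = 0 then 0 else ((2 ^ i : ℕ) : ℤ)) : ℤ) : ZMod (2 * 2 ^ i)) with ha
    refine le_trans (rowPr_mono ?_) ((row_core i v C (fun l a => b l (some a)) hb 0 a _ (hM _)).trans
      (psi_le i E₀ L σ u c δ r v h.odd C (Nat.le_succ c)))
    rintro x ⟨hd, hpar⟩
    refine ⟨fun l => ?_, ?_⟩
    · rw [← parEval_none_zero (2 ^ i) v _ (hW₀ _ (hbW l)).2]
      simpa using hpar _ (hW₀ _ (hbW l)).1
    · have hq := hpar ws hws
      simp only [parEval, hwn1, one_mul] at hq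
      have hq' : ((dot v x / ((2 ^ i : ℕ) : ℤ) : ℤ) : ZMod 2) = ∑ j, ws (some j) * par x j := by
        rw [eq_comm, ← zmod2_neg ((dot v x / ((2 ^ i : ℕ) : ℤ) : ℤ) : ZMod 2)]
        exact eq_neg_of_add_eq_zero_left hq
      rw [dot_residue i v x hd, hq']

/-- The divisibility probability of one row. -/
theorem dvd_bound {i E₀ L u : ℕ} {δ r : ℝ} {v : Fin k → ℤ} (h : Nice i E₀ L u δ r v) (σ : ℕ) :
    rowPr (1 / 2) (fun x : Row k => ((2 ^ i : ℕ) : ℤ) ∣ dot v x)
      ≤ 2 * Phi k i E₀ L σ u 0 δ r / 2 ^ i := by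
  classical
  refine le_trans (rowPr_mono ?_) ((row_two i v ⟨Fin.elim0, fun a => a.elim0⟩ (Fin.elim0 : Fin 0 → Fin k → ZMod 2)
    (fun l => l.elim0) _ (fun T _ x => atom_le_Mb i E₀ L σ δ r h.δ0 h.δ1 h.r0 h.r1 h.lam v h.good T x)).trans ?_)
  · exact fun x hx => ⟨hx, fun l => l.elim0⟩
  · refine (mul_le_mul_of_nonneg_left (psi_le i E₀ L σ u 0 δ r v h.odd _ (Nat.zero_le _)) zero_le_two).trans (le_of_eq ?_)
    ring

/-- The atom of the star. -/
theorem star_bound {i E₀ L u : ℕ} {δ r : ℝ} {v : Fin k → ℤ} (h : Nice i E₀ L u δ r v) (σ : ℕ)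
    (i₀ : Fin k) :
    pr (fun _ => 1 / 2) (fun b : {b : Fin k // b ≠ i₀} => (v b.1 : ZMod (2 ^ i))) 0
      ≤ 2 * Phi k i E₀ L σ u 0 δ r / 2 ^ i := by
  classical
  set C : Fin 1 ↪ Fin k := ⟨fun _ => i₀, fun a b _ => Subsingleton.elim a b⟩
  set B : Fin 1 → Fin k → ZMod 2 := fun _ c => if c = i₀ then 1 else 0
  have hB : ∀ l l', B l (C l') = if l = l' then 1 else 0 := fun l l' => by
    rw [Subsingleton.elim l l', if_pos rfl]; exact if_pos rfl
  have hrow := (row_two i v C B hB _ (fun T _ x =>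
    atom_le_Mb i E₀ L σ δ r h.δ0 h.δ1 h.r0 h.r1 h.lam v h.good T x)).trans
    (mul_le_mul_of_nonneg_left (psi_le i E₀ L σ u 0 δ r v h.odd C le_rfl) zero_le_two)
  set e : {b : Fin k // b ≠ i₀} ↪ Fin k := Function.Embedding.subtype _
  have he : pr (fun _ => 1 / 2) (fun b : {b : Fin k // b ≠ i₀} => (v b.1 : ZMod (2 ^ i))) 0
      = ∑ x : Row k, if ∑ c ∈ univ.erase i₀, ival (x c) • (v c : ZMod (2 ^ i)) = 0
          then fw (fun _ => (1 / 2 : ℝ)) x else 0 := by
    have h1 := pr_embed (G := ZMod (2 ^ i)) e (1 / 2) (fun c => if c = i₀ then 0 else (v c : ZMod (2 ^ i)))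
      fun c hc => by
        by_cases hci : c = i₀
        · simp [hci]
        · exact absurd (mem_map.2 ⟨(⟨c, hci⟩ : {b : Fin k // b ≠ i₀}), mem_univ _, rfl⟩) hc
    refine Eq.trans ?_ (h1.symm.trans ?_)
    · congr 1; funext b; simp [e, b.2]
    · refine sum_congr rfl fun x _ => if_congr ?_ rfl rfl
      rw [tot, ← add_sum_erase _ _ (mem_univ i₀), if_pos rfl, smul_zero, zero_add]
      exact Iff.of_eq (congrArg (· = 0) (sum_congr rfl fun c hc => by rw [if_neg (mem_erase.1 hc).1]))
  rw [he]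
  have key : ∀ y : SignType → ℝ, (∑ a, wt (1 / 2) a * y a) = y 0 / 2 + (y 1 + y (-1)) / 4 := fun y => by
    simp [sum_signType, wt]; ring
  set F : Row k → ℝ := fun x =>
    if ∑ c ∈ univ.erase i₀, ival (x c) • (v c : ZMod (2 ^ i)) = 0 then 1 else 0
  have hF : ∀ x a, F (Function.update x i₀ a) = F x := fun x a => by
    simp only [F]
    refine if_congr (Iff.of_eq (congrArg (· = 0) (sum_congr rfl fun c hc => ?_))) rfl rfl
    rw [Function.update_of_ne (mem_erase.1 hc).1]
  let E := Equiv.funSplitAt i₀ SignType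
  have hsplit : ∀ g : SignType → ℝ, ∑ x : Row k, fw (fun _ => (1 / 2 : ℝ)) x * (g (x i₀) * F x)
      = (∑ a, wt (1 / 2) a * g a) * ∑ y : {c // c ≠ i₀} → SignType,
          (∏ c, wt (1 / 2) (y c)) * F (E.symm (0, y)) := by
    intro g
    rw [← E.symm.sum_comp, Fintype.sum_prod_type, sum_mul_sum]
    refine sum_congr rfl fun a _ => sum_congr rfl fun y _ => ?_
    have h0 : (E.symm (a, y)) i₀ = a := by simp [E]
    have hup : E.symm (a, y) = Function.update (E.symm (0, y)) i₀ a := by
      funext c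
      by_cases hc : c = i₀
      · subst hc; simp [h0]
      · simp [hc, E]
    rw [h0]
    conv_lhs => rw [hup, hF]
    rw [← hup]
    simp only [fw]
    rw [← mul_prod_erase _ _ (mem_univ i₀), h0, prod_subtype (p := fun c => c ≠ i₀) (univ.erase i₀) (by simp) (fun c => wt (1 / 2) (E.symm (a, y) c))]
    rw [show (∏ c : {c // c ≠ i₀}, wt (1 / 2) (E.symm (a, y) c.1)) = ∏ c, wt (1 / 2) (y c) from
      prod_congr rfl fun c _ => by simp [E, c.2]]
    ring
  have h1 := hsplit fun _ => 1
  have h2 := hsplit fun a => if a = 0 then 1 else 0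
  simp only [key, if_true, one_ne_zero, (show ((-1 : SignType) = 0) = False by decide), (show ((1 : SignType) = 0) = False by decide),
    if_false, add_zero, zero_div, one_mul] at h1 h2
  have hle : ∑ x : Row k, fw (fun _ => (1 / 2 : ℝ)) x * ((if x i₀ = 0 then 1 else 0) * F x)
      ≤ rowPr (1 / 2) (fun x : Row k => ((2 ^ i : ℕ) : ℤ) ∣ dot v x ∧ ∀ l, ∑ c, B l c * par x c = 0) := by
    unfold rowPr
    refine sum_le_sum fun x _ => ?_
    by_cases hx : x i₀ = 0 ∧ ∑ c ∈ univ.erase i₀, ival (x c) • (v c : ZMod (2 ^ i)) = 0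
    · rw [if_pos hx.1, if_pos]
      · rw [show F x = 1 from if_pos hx.2, one_mul, mul_one]
      · refine ⟨?_, fun l => by simp [B, par, hx.1, ival]⟩
        rw [← ZMod.intCast_zmod_eq_zero_iff_dvd, ← hx.2, dot, ← add_sum_erase _ _ (mem_univ i₀), hx.1]
        simp [ival, zsmul_eq_mul]
    · refine le_trans (le_of_eq ?_) (by split; exacts [rfw_nonneg x, le_rfl])
      by_cases hx0 : x i₀ = 0
      · rw [show F x = 0 from if_neg fun h => hx ⟨hx0, h⟩]; simp
      · simp [hx0]
  have hgoal : ∀ x : Row k, (if ∑ c ∈ univ.erase i₀, ival (x c) • (v c : ZMod (2 ^ i)) = 0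
      then fw (fun _ => (1 / 2 : ℝ)) x else 0) = fw (fun _ => (1 / 2 : ℝ)) x * F x := fun x => by
    simp [F]
  simp only [hgoal]
  rw [h1]
  have := hle.trans hrow
  rw [h2] at this
  rw [pow_one, mul_div_assoc] at *
  linarith

/-- Union bound for small kernels. -/
theorem dSum_small_le (P : ℕ) [NeZero P] (hP : 2 ∣ P) (v : Fin k → ℤ) (i₀ : Fin k)
    (hv : (v i₀ : ZMod 2) ≠ 0) (c : ℕ) (X : ℝ) (hX : 0 ≤ X)
    (hrow : ∀ W : Submodule (ZMod 2) (V2 k), c + 1 ≤ Module.finrank (ZMod 2) W →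
      rowPr (1 / 2) (fun x : Row k => (P : ℤ) ∣ dot v x ∧ ∀ w ∈ W, parEval P v w x = 0) ≤ X) :
    dSum P v m (c + 1) ≤ (2 : ℝ) ^ ((k + 1) * c) * X ^ m := by
  classical
  set f : Fin 1 → V2 k := fun _ => vbar v
  set T := (univ : Finset (Fin c → V2 k)).filter fun b => LinearIndependent (ZMod 2) (Fin.append f b)
  set Sp : (Fin c → V2 k) → Submodule (ZMod 2) (V2 k) := fun b => Submodule.span (ZMod 2) (Set.range (Fin.append f b))
  calc dSum P v m (c + 1) ≤ ∑ R : Fin m → Row k, ∑ b ∈ T,
        (if ∀ r, (P : ℤ) ∣ dot v (R r) ∧ ∀ w ∈ Sp b, parEval P v w (R r) = 0 then mwt R else 0) := by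
        refine sum_le_sum fun R _ => ?_
        have hnn : ∀ b ∈ T, 0 ≤ (if ∀ r, (P : ℤ) ∣ dot v (R r) ∧ ∀ w ∈ Sp b, parEval P v w (R r) = 0
            then mwt R else 0) := fun b _ => by
          split
          · exact mwt_nonneg R
          · exact le_rfl
        split_ifs with h
        · have hvW : vbar v ∈ kerW P v R := vbar_mem_kerW hP h.1
          obtain ⟨g, hg, hgW, hgf⟩ := extend_indep (kerW P v R) c 1 f
            (linearIndependent_unique_iff.2 (vbar_ne_zero hv)) (fun _ => hvW) (by rw [h.2]; omega)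
          set b : Fin c → V2 k := fun l => g (Fin.natAdd 1 l) with hb
          have happ : Fin.append f b = g := by
            funext l
            induction l using Fin.addCases with
            | left l => rw [Fin.append_left, hgf]
            | right l => rw [Fin.append_right]
          have hbT : b ∈ T := by simp only [T, mem_filter, mem_univ, true_and]; rw [happ]; exact hg
          refine le_trans ?_ (single_le_sum hnn hbT)
          have hle : Sp b ≤ kerW P v R := Submodule.span_le.2 fun y ⟨l, hl⟩ => by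
            rw [← hl, happ]; exact hgW l
          rw [if_pos fun r => ⟨h.1 r, fun w hw => hle hw r⟩]
        · exact sum_nonneg hnn
    _ = ∑ b ∈ T, ∏ _r : Fin m, rowPr (1 / 2) (fun x : Row k => (P : ℤ) ∣ dot v x ∧ ∀ w ∈ Sp b, parEval P v w x = 0) := by
        rw [sum_comm]
        exact sum_congr rfl fun b _ => sum_rows (fun _ => fun x : Row k => (P : ℤ) ∣ dot v x ∧ ∀ w ∈ Sp b, parEval P v w x = 0)
    _ ≤ ∑ _b ∈ T, X ^ m := by
        refine sum_le_sum fun b hb => ?_
        rw [prod_const, card_univ, Fintype.card_fin]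
        refine pow_le_pow_left₀ (rowPr_nonneg _) (hrow _ ?_) _
        rw [finrank_span_eq_card (mem_filter.1 hb).2, Fintype.card_fin, add_comm]
    _ ≤ _ := by
        rw [sum_const, nsmul_eq_mul]
        refine mul_le_mul_of_nonneg_right ?_ (pow_nonneg hX _)
        have : T.card ≤ 2 ^ ((k + 1) * c) := (card_le_univ T).trans (by simp [← pow_mul])
        exact_mod_cast this

/-- Exposure bound for large kernels. -/
theorem dSum_large_le (P : ℕ) [NeZero P] (v : Fin k → ℤ) (c : ℕ) (K γ : ℝ) (hK : 0 ≤ K)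
    (hγ0 : 0 ≤ γ) (hγ1 : γ ≤ 1) (hdvd : rowPr (1 / 2) (fun x : Row k => (P : ℤ) ∣ dot v x) ≤ K)
    (hrow : ∀ W : Submodule (ZMod 2) (V2 k), c + 1 ≤ Module.finrank (ZMod 2) W →
      rowPr (1 / 2) (fun x : Row k => (P : ℤ) ∣ dot v x ∧ ∀ w ∈ W, parEval P v w x = 0) ≤ γ * K) :
    dSum P v m (c + 1) ≤ 2 ^ m * (K ^ m * γ ^ (m + c - k)) := by
  classical
  set Bs := (univ : Finset (Finset (Fin m))).filter fun B => B.card + (c + 1) ≤ k + 1 with hBs
  calc dSum P v m (c + 1)
      ≤ ∑ R : Fin m → Row k, ∑ B ∈ Bs,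
          (if (∀ r, (P : ℤ) ∣ dot v (R r)) ∧ c + 1 ≤ Module.finrank (ZMod 2) (kerW P v fun r : B => R r) ∧
              (∀ r ∉ B, ∀ y ∈ kerW P v (fun r : B => R r), parEval P v y (R r) = 0)
            then mwt R else 0) := by
        refine sum_le_sum fun R _ => ?_
        have hnn : ∀ B ∈ Bs, 0 ≤ (if (∀ r, (P : ℤ) ∣ dot v (R r)) ∧
              c + 1 ≤ Module.finrank (ZMod 2) (kerW P v fun r : B => R r) ∧
              (∀ r ∉ B, ∀ y ∈ kerW P v (fun r : B => R r), parEval P v y (R r) = 0)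
            then mwt R else 0) := fun B _ => by
          split
          · exact mwt_nonneg R
          · exact le_rfl
        split_ifs with h
        · obtain ⟨B, hBc, hBk⟩ := exists_rows_kerW P v R
          refine le_trans ?_ (single_le_sum hnn (show B ∈ Bs by simp [hBs]; omega))
          rw [if_pos ⟨h.1, by rw [hBk, h.2], fun r _ y hy => by rw [hBk] at hy; exact hy r⟩]
        · exact sum_nonneg hnn
    _ = ∑ B ∈ Bs, ∑ R : Fin m → Row k,
          (if (∀ r, (P : ℤ) ∣ dot v (R r)) ∧ c + 1 ≤ Module.finrank (ZMod 2) (kerW P v fun r : B => R r) ∧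
              (∀ r ∉ B, ∀ y ∈ kerW P v (fun r : B => R r), parEval P v y (R r) = 0)
            then mwt R else 0) := sum_comm
    _ ≤ ∑ _B ∈ Bs, K ^ m * γ ^ (m + c - k) := by
        refine sum_le_sum fun B hB => ?_
        simp only [hBs, mem_filter, mem_univ, true_and] at hB
        rw [← (Equiv.piEquivPiSubtypeProd (fun r : Fin m => r ∈ B) (fun _ => Row k)).symm.sum_comp,
          Fintype.sum_prod_type]
        have hout : Fintype.card {r : Fin m // r ∉ B} = m - B.card := by
          rw [Fintype.card_subtype_compl, Fintype.card_fin, Fintype.card_coe]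
        calc _ ≤ ∑ x : {r : Fin m // r ∈ B} → Row k,
              (if ∀ r, (P : ℤ) ∣ dot v (x r) then ∏ r, fw (fun _ => (1 / 2 : ℝ)) (x r) else 0) *
                (γ * K) ^ (m - B.card) := by
              refine sum_le_sum fun x _ => ?_
              set e := (Equiv.piEquivPiSubtypeProd (fun r : Fin m => r ∈ B) (fun _ => Row k)).symm
              have hin : ∀ y (r : {r : Fin m // r ∈ B}), e (x, y) r = x r := fun y r => by simp [e]
              have hou : ∀ y (r : {r : Fin m // r ∉ B}), e (x, y) r = y r := fun y r => by simp [e, r.2]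
              have hW : ∀ y, kerW P v (fun r : B => e (x, y) r) = kerW P v x := by
                intro y; congr 1; funext r; exact hin y r
              by_cases hx : (∀ r, (P : ℤ) ∣ dot v (x r)) ∧ c + 1 ≤ Module.finrank (ZMod 2) (kerW P v x)
              · rw [if_pos hx.1]
                set Q : Row k → Prop := fun z => (P : ℤ) ∣ dot v z ∧ ∀ w ∈ kerW P v x, parEval P v w z = 0
                calc _ ≤ ∑ y : {r : Fin m // r ∉ B} → Row k,
                      (∏ r, fw (fun _ => (1 / 2 : ℝ)) (x r)) *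
                        (if ∀ r, Q (y r) then ∏ r, fw (fun _ => (1 / 2 : ℝ)) (y r) else 0) := by
                      refine sum_le_sum fun y _ => ?_
                      have hx0 : 0 ≤ ∏ r, fw (fun _ => (1 / 2 : ℝ)) (x r) :=
                        prod_nonneg fun r _ => rfw_nonneg _
                      have hy0 : 0 ≤ ∏ r, fw (fun _ => (1 / 2 : ℝ)) (y r) :=
                        prod_nonneg fun r _ => rfw_nonneg _
                      have hw : mwt (e (x, y)) = (∏ r, fw (fun _ => (1 / 2 : ℝ)) (x r)) *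
                          ∏ r, fw (fun _ => (1 / 2 : ℝ)) (y r) := by
                        unfold mwt
                        rw [← Fintype.prod_subtype_mul_prod_subtype (fun r : Fin m => r ∈ B)]
                        refine congrArg₂ (· * ·) ?_ ?_
                        · refine Finset.prod_congr (by ext; simp) fun r _ => ?_
                          rw [hin]
                        · refine Finset.prod_congr (by ext; simp) fun r _ => ?_
                          rw [hou]
                      split_ifs with h1 h2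
                      · rw [hw]
                      · refine absurd (fun r => ?_) h2
                        refine ⟨by rw [← hou y r]; exact h1.1 r, fun w hw' => ?_⟩
                        rw [← hou y r]
                        exact h1.2.2 r r.2 _ (by rw [hW]; exact hw')
                      · exact mul_nonneg hx0 hy0
                      · simp
                  _ ≤ _ := by
                      rw [← mul_sum, sum_rows (fun _ => Q)]
                      refine mul_le_mul_of_nonneg_left ?_ (prod_nonneg fun r _ => rfw_nonneg _)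
                      rw [prod_const, card_univ, hout]
                      exact pow_le_pow_left₀ (rowPr_nonneg _) (hrow _ hx.2) _
              · refine le_trans (le_of_eq (sum_eq_zero fun y _ => if_neg fun h => hx
                  ⟨fun r => by rw [← hin y r]; exact h.1 r, by rw [← hW y]; exact h.2.1⟩)) ?_
                refine mul_nonneg ?_ (pow_nonneg (mul_nonneg hγ0 hK) _)
                split
                · exact prod_nonneg fun r _ => rfw_nonneg _
                · exact le_rfl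
          _ = (rowPr (1 / 2) (fun x => (P : ℤ) ∣ dot v x)) ^ B.card * (γ * K) ^ (m - B.card) := by
              rw [← sum_mul, sum_rows (fun _ => fun z : Row k => (P : ℤ) ∣ dot v z), prod_const, card_univ,
                Fintype.card_coe]
          _ ≤ K ^ B.card * (γ * K) ^ (m - B.card) := by
              refine mul_le_mul_of_nonneg_right ?_ (pow_nonneg (mul_nonneg hγ0 hK) _)
              exact pow_le_pow_left₀ (rowPr_nonneg _) hdvd _
          _ = K ^ m * γ ^ (m - B.card) := by
              have hBm : B.card ≤ m := by simpa using card_le_univ B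
              rw [mul_pow, mul_left_comm, ← pow_add, Nat.add_sub_cancel' hBm, mul_comm]
          _ ≤ K ^ m * γ ^ (m + c - k) := by
              refine mul_le_mul_of_nonneg_left ?_ (pow_nonneg hK _)
              exact pow_le_pow_of_le_one hγ0 hγ1 (by omega)
    _ ≤ _ := by
        rw [sum_const, nsmul_eq_mul]
        refine mul_le_mul_of_nonneg_right ?_ (mul_nonneg (pow_nonneg hK _) (pow_nonneg hγ0 _))
        have : Bs.card ≤ 2 ^ m := by simpa using card_le_univ Bs
        exact_mod_cast this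

end

end Vale.Agent.P160.Rate2
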