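import Vale.Agent.P160.Rate2.KeySum

/-!
Bad block vectors are negligible.
-/

namespace Vale.Agent.P160.Rate2

open Finset Vale.Agent.P160.Rate

set_option linter.unusedSectionVars false

noncomputable section

theorem eventually_const_le (C a : ℝ) (ha : 0 < a) :
    ∀ᶠ n : ℕ in Filter.atTop, C ≤ (2 : ℝ) ^ (a * n) := by
  have h := tendsto_pow_atTop_atTop_of_one_lt (Real.one_lt_rpow (show (1 : ℝ) < 2 by norm_num) ha)
  filter_upwards [h.eventually_ge_atTop C] with n hn
  rw [Real.rpow_mul (by norm_num), Real.rpow_natCast]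
  exact hn

open Classical in
/-- The fraction of vectors that are bad at one level is below `2 ^ (-1000 n)`. -/
theorem exists_bad_count :
    ∃ E₀ : ℕ, 1 ≤ E₀ ∧ ∀ᶠ n : ℕ in Filter.atTop, ∀ l, l ≤ pj n → ∀ (N : ℕ) [NeZero N], N = 2 ^ l →
      ((univ.filter fun w : Fin (pk n) → ZMod N => ¬ GoodAt l E₀ (pl n) pd (rep w)).card : ℝ)
        ≤ (N : ℝ) ^ pk n * (2 : ℝ) ^ (-(1000 * (n : ℝ))) := by
  obtain ⟨E, hE⟩ : ∃ E : ℕ, (32320000001 : ℝ) ≤ E := exists_nat_ge _
  obtain ⟨r, hr0, hr1, hlam⟩ := exists_lam E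
  obtain ⟨s₀, hs₀⟩ := exists_pow_lt_of_lt_one (show (0 : ℝ) < 1 / 2 ^ E by positivity) hr1
  set s := 2 * (s₀ + 1) with hs
  have hrs : r ^ s ≤ 1 / 2 ^ E :=
    le_trans (pow_le_pow_of_le_one hr0 hr1.le (by omega)) hs₀.le
  have hα : (1 : ℝ) / 2 ^ E + r ^ s ≤ (2 : ℝ) ^ (-(32320000000 : ℝ)) := by
    calc (1 : ℝ) / 2 ^ E + r ^ s ≤ 1 / 2 ^ E + 1 / 2 ^ E := by linarith
      _ = (2 : ℝ) ^ (1 - (E : ℝ)) := by
          rw [Real.rpow_sub (by norm_num), Real.rpow_one, Real.rpow_natCast]; ring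
      _ ≤ _ := Real.rpow_le_rpow_of_exponent_le (by norm_num) (by linarith)
  refine ⟨s, by omega, ?_⟩
  set C : ℝ := 3 ^ (s * s) * 2 ^ s / pd ^ s with hC
  have hpd := pd_pos
  filter_upwards [eventually_const_le C 1 one_pos, Filter.eventually_ge_atTop 100000] with n hnC hnN
  intro l hl N _ hN
  subst hN
  obtain ⟨⟨hk1, hk2⟩, hm, ⟨hj1, hj2⟩, ⟨hl1, hl2⟩, -, -⟩ := param_bounds n
  have hn : (100000 : ℝ) ≤ n := by exact_mod_cast hnN
  set k := pk n with hk
  set L := pl n with hL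
  have hlR : (l : ℝ) ≤ 323 * n / 2000 := le_trans (by exact_mod_cast hl) hj1
  set 𝒯 := ((univ : Finset (Finset (Fin k))).filter fun T => l + L ≤ T.card) ×ˢ (univ : Finset (ZMod (2 ^ l)))
  set B : Finset (Fin k) × ZMod (2 ^ l) → Finset (Fin k → ZMod (2 ^ l)) := fun p =>
    univ.filter fun w => pd < ‖exc l s w p.1 p.2‖
  have hsub : (univ.filter fun w : Fin k → ZMod (2 ^ l) => ¬ GoodAt l s L pd (rep w)) ⊆ 𝒯.biUnion B := by
    intro w hw
    simp only [mem_filter, mem_univ, true_and] at hw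
    unfold GoodAt at hw
    push Not at hw
    obtain ⟨T, hT, x, hx⟩ := hw
    have hcast : (fun c => ((rep w c : ℤ) : ZMod (2 ^ l))) = w := by
      funext c; simp [rep]
    rw [hcast] at hx
    exact mem_biUnion.2 ⟨(T, x), by simp [𝒯, hT], by simp [B, hx]⟩
  set M : ℝ := ((2 ^ l : ℕ) : ℝ) with hM
  have hB : ∀ p ∈ 𝒯, ((B p).card : ℝ) ≤ M ^ k * C * (2 : ℝ) ^ (-(1004 * (n : ℝ))) := by
    rintro ⟨T, x⟩ hp
    simp only [𝒯, mem_product, mem_filter, mem_univ, true_and, and_true] at hp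
    have hTc : (l : ℝ) + L ≤ T.card := by exact_mod_cast hp
    have hmark : pd ^ s * ((B (T, x)).card : ℝ) ≤ ∑ w : Fin k → ZMod (2 ^ l), ‖exc l s w T x‖ ^ s := by
      rw [mul_comm, ← nsmul_eq_mul]
      refine le_trans (card_nsmul_le_sum (B (T, x)) _ _ fun w hw => ?_)
        (sum_le_sum_of_subset_of_nonneg (subset_univ _) fun w _ _ => by positivity)
      exact pow_le_pow_left₀ hpd.le (mem_filter.1 hw).2.le _
    have hmom := exc_moment (k := k) l E s s (by omega) Nat.lt_two_pow_self r hr0 hlam (even_two_mul _) T x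
    have hD : ∀ D ∈ (univ : Finset (Finset (Fin s))).filter (·.Nonempty),
        M ^ D.card * (min ((1 / 2 : ℝ) ^ D.card) (1 / 2 ^ E + r ^ s)) ^ T.card
          ≤ (2 : ℝ) ^ (-(1004 * (n : ℝ))) := by
      intro D _
      have hα0 : (0 : ℝ) ≤ 1 / 2 ^ E + r ^ s := by positivity
      have hM' : M ^ D.card = (2 : ℝ) ^ ((l : ℝ) * D.card) := by
        rw [Real.rpow_mul (by norm_num), Real.rpow_natCast, Real.rpow_natCast, hM]
        push_cast; rfl
      rw [hM']
      by_cases hbig : (4040000 : ℝ) ≤ D.card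
      · refine le_trans (mul_le_mul_of_nonneg_left (pow_le_pow_left₀ (le_min (by positivity) hα0)
          (min_le_left _ _) _) (by positivity)) ?_
        rw [one_div_pow, one_div_pow, one_div, ← Real.rpow_natCast, ← Real.rpow_natCast,
          ← Real.rpow_mul (by norm_num), ← Real.rpow_neg (by norm_num), ← Real.rpow_add (by norm_num)]
        refine Real.rpow_le_rpow_of_exponent_le (by norm_num) ?_
        have h2 := mul_le_mul_of_nonneg_left hTc (Nat.cast_nonneg D.card : (0 : ℝ) ≤ D.card)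
        have h3 := mul_le_mul hbig (show (n : ℝ) / 4000 ≤ L by linarith) (by positivity) (Nat.cast_nonneg _)
        nlinarith
      · push Not at hbig
        refine le_trans (mul_le_mul_of_nonneg_left (le_trans (pow_le_pow_left₀ (le_min (by positivity) hα0)
          (min_le_right _ _) _) (pow_le_two_rpow hα0 hα T.card)) (by positivity)) ?_
        rw [← Real.rpow_add (by norm_num)]
        refine Real.rpow_le_rpow_of_exponent_le (by norm_num) ?_
        have h1 : (l : ℝ) * D.card ≤ 323 * n / 2000 * 4040000 :=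
          mul_le_mul hlR hbig.le (Nat.cast_nonneg _) (by positivity)
        have : (n : ℝ) / 4000 ≤ T.card := by linarith [(Nat.cast_nonneg l : (0 : ℝ) ≤ l)]
        linarith
    have hsumD := sum_le_card_nsmul _ _ _ hD
    have hcardD : (((univ : Finset (Finset (Fin s))).filter (·.Nonempty)).card : ℝ) ≤ 2 ^ s := by
      have : ((univ : Finset (Finset (Fin s))).filter (·.Nonempty)).card ≤ 2 ^ s := by
        refine (card_le_univ _).trans (le_of_eq ?_); simp
      exact_mod_cast this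
    rw [nsmul_eq_mul] at hsumD
    have hds : (0 : ℝ) < pd ^ s := by positivity
    refine le_of_mul_le_mul_left ?_ hds
    refine hmark.trans (hmom.trans ?_)
    rw [← hM, hC]
    calc M ^ k * 3 ^ (s * s) * ∑ D ∈ (univ : Finset (Finset (Fin s))).filter (·.Nonempty),
          M ^ D.card * (min ((1 / 2 : ℝ) ^ D.card) (1 / 2 ^ E + r ^ s)) ^ T.card
        ≤ M ^ k * 3 ^ (s * s) * (2 ^ s * (2 : ℝ) ^ (-(1004 * (n : ℝ)))) := by
          refine mul_le_mul_of_nonneg_left (hsumD.trans ?_) (by positivity)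
          exact mul_le_mul_of_nonneg_right hcardD (by positivity)
      _ = _ := by field_simp
  have h1 : ((univ.filter fun w : Fin k → ZMod (2 ^ l) => ¬ GoodAt l s L pd (rep w)).card : ℝ)
      ≤ ∑ p ∈ 𝒯, ((B p).card : ℝ) := by
    exact_mod_cast (card_le_card hsub).trans card_biUnion_le
  refine h1.trans ((sum_le_card_nsmul _ _ _ hB).trans ?_)
  rw [nsmul_eq_mul]
  have h𝒯 : (𝒯.card : ℝ) ≤ (2 : ℝ) ^ ((k : ℝ) + l) := by
    rw [Real.rpow_add (by norm_num), Real.rpow_natCast, Real.rpow_natCast]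
    have : 𝒯.card ≤ 2 ^ k * 2 ^ l := (card_le_univ _).trans (le_of_eq (by simp))
    exact_mod_cast this
  have hC0 : 0 ≤ C := by positivity
  calc (𝒯.card : ℝ) * (M ^ k * C * (2 : ℝ) ^ (-(1004 * (n : ℝ))))
      ≤ (2 : ℝ) ^ ((k : ℝ) + l) * (M ^ k * (2 : ℝ) ^ (1 * (n : ℝ)) * (2 : ℝ) ^ (-(1004 * (n : ℝ)))) := by
        refine mul_le_mul h𝒯 ?_ (by positivity) (by positivity)
        exact mul_le_mul_of_nonneg_right (mul_le_mul_of_nonneg_left hnC (by positivity)) (by positivity)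
    _ = M ^ k * (2 : ℝ) ^ ((k : ℝ) + l + (1 * n + -(1004 * (n : ℝ)))) := by
        simp only [Real.rpow_add (show (0 : ℝ) < 2 by norm_num)]
        ring
    _ ≤ _ := by
        refine mul_le_mul_of_nonneg_left (Real.rpow_le_rpow_of_exponent_le (by norm_num) ?_) (by positivity)
        linarith

end

end Vale.Agent.P160.Rate2
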