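import Vale.Agent.P160.Rate2.Main

/-!
First moments over dense null vectors modulo powers of two.
-/

namespace Vale.Agent.P160.Rate2

open Finset Vale.Agent.P160.Rate

set_option linter.unusedSectionVars false

noncomputable section

variable {m k n : ℕ}

/-- The analytic side conditions. -/
structure Base (p : Par) : Prop where
  hδ0 : 0 ≤ p.δ
  hδ1 : p.δ ≤ 1
  hr0 : 0 ≤ p.r
  hr1 : p.r ≤ 1
  hlam : ∀ w : ℂ, w ^ (2 ^ p.E₀) = 1 → w ≠ 1 → fb w ≤ p.r

theorem sum_split {M : ℕ} [NeZero M] (σ : Bij m k n)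
    (F : (Fin m → ZMod M) → (Fin k → ZMod M) → ℝ) :
    ∑ q : Fin n → ZMod M, F (fun a => q (σ (Sum.inl a))) (fun c => q (σ (Sum.inr c)))
      = ∑ v : Fin k → ZMod M, ∑ w : Fin m → ZMod M, F w v := by
  rw [sum_comm, ← Fintype.sum_prod_type (f := fun x : (Fin m → ZMod M) × (Fin k → ZMod M) => F x.1 x.2)]
  exact Fintype.sum_equiv
    ((σ.symm.arrowCongr (Equiv.refl (ZMod M))).trans (Equiv.sumArrowEquivProdArrow (Fin m) (Fin k) (ZMod M)))
    _ _ fun q => rfl

theorem rep_comp {M : ℕ} (q : Fin n → ZMod M) (σ : Bij m k n) :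
    (fun a => rep q (σ a)) = joinVec (rep fun c => q (σ (Sum.inr c))) (fun a => q (σ (Sum.inl a))) := by
  funext a; cases a <;> rfl

theorem rep_cast {M : ℕ} [NeZero M] {α : Type*} (z : α → ℤ) (a : α) :
    ((rep (fun a => (z a : ZMod M)) a : ℤ) : ZMod M) = (z a : ZMod M) := by
  rw [rep, Int.cast_natCast, ZMod.natCast_zmod_val]

theorem cast_dvd {M N : ℕ} (h : N ∣ M) {a b : ℤ} (hab : (a : ZMod M) = (b : ZMod M)) :
    (a : ZMod N) = (b : ZMod N) := by
  rw [ZMod.intCast_eq_intCast_iff_dvd_sub] at hab ⊢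
  exact dvd_trans (by exact_mod_cast h) hab

theorem oddSet_congr {M : ℕ} (hM : 2 ∣ M) {z w : Fin n → ℤ} (h : ∀ a, (z a : ZMod M) = (w a : ZMod M)) :
    oddSet z = oddSet w := by
  unfold oddSet
  simp only [fun a => cast_dvd hM (h a)]

theorem allGood_congr {p : Par} {i M : ℕ} (hM : 2 ∣ M) (hi : 2 ^ i ∣ M) {z w : Fin p.n → ℤ}
    (h : ∀ a, (z a : ZMod M) = (w a : ZMod M)) : AllGood p i z ↔ AllGood p i w := by
  unfold AllGood
  rw [oddSet_congr hM h]
  exact forall₂_congr fun σ _ => good_congr fun c => cast_dvd hi (h _)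

/-- The image of the second block. -/
def kSet (σ : Bij m k n) : Finset (Fin n) := univ.image fun c => σ (Sum.inr c)

theorem cnt_kSet (O : Finset (Fin n)) (σ : Bij m k n) : cnt O σ = (kSet σ ∩ O).card := by
  rw [cnt, kSet, ← card_image_of_injective (univ.filter fun c : Fin k => σ (Sum.inr c) ∈ O)
    (σ.injective.comp Sum.inr_injective)]
  congr 1
  ext a
  simp only [mem_image, mem_filter, mem_univ, true_and, mem_inter, Function.comp_apply]
  constructor
  · rintro ⟨c, hc, rfl⟩; exact ⟨⟨c, rfl⟩, hc⟩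
  · rintro ⟨⟨c, rfl⟩, hc⟩; exact ⟨c, hc, rfl⟩

open Classical in
/-- One labelling for each possible second block. -/
def canon (m k n : ℕ) [Nonempty (Bij m k n)] : Finset (Bij m k n) :=
  ((univ : Finset (Bij m k n)).image kSet).image (Function.invFun kSet)

theorem card_canon_le [Nonempty (Bij m k n)] : (canon m k n).card ≤ 2 ^ n := by
  refine card_image_le.trans ((card_le_univ _).trans (le_of_eq ?_))
  simp

theorem exists_canon [Nonempty (Bij m k n)] (σ : Bij m k n) :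
    ∃ τ ∈ canon m k n, ∀ O : Finset (Fin n), cnt O τ = cnt O σ ∧
      ∀ (l E₀ L : ℕ) (δ : ℝ) (z : Fin n → ℤ), GoodAt l E₀ L δ (blk z τ) → GoodAt l E₀ L δ (blk z σ) := by
  classical
  set τ : Bij m k n := Function.invFun kSet (kSet σ) with hτ
  have hK : kSet τ = kSet σ := Function.invFun_eq (f := kSet (m := m) (k := k) (n := n)) ⟨σ, rfl⟩
  refine ⟨τ, mem_image.2 ⟨kSet σ, mem_image.2 ⟨σ, mem_univ _, rfl⟩, rfl⟩, fun O => ⟨by rw [cnt_kSet, cnt_kSet, hK], ?_⟩⟩
  intro l E₀ L δ z hg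
  have hex : ∀ c, ∃ c', τ (Sum.inr c') = σ (Sum.inr c) := by
    intro c
    have : σ (Sum.inr c) ∈ kSet τ := by rw [hK]; exact mem_image.2 ⟨c, mem_univ _, rfl⟩
    obtain ⟨c', -, hc'⟩ := mem_image.1 this
    exact ⟨c', hc'⟩
  choose f hf using hex
  have hfi : Function.Injective f := fun a b h => Sum.inr_injective (σ.injective (by rw [← hf a, ← hf b, h]))
  have := goodAt_perm (Equiv.ofBijective f ⟨hfi, Finite.injective_iff_surjective.1 hfi⟩) hg
  refine cast (congrArg _ ?_) this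
  funext c
  show z (τ (Sum.inr (f c))) = _
  rw [hf]; rfl

/-- The cover of dense null vectors by first bad levels. -/
theorem dense_cover {p : Par} (hb : Base p) [Nonempty (Bij p.m p.k p.n)] (j : ℕ) (b : Sym2 (Fin p.n) → Bool)
    (h : ¬ ∃ τ ∈ canon p.m p.k p.n, ∃ l ∈ range j, BadAt p τ l b) (z : Fin p.n → ℤ) (hz : IsNull b z)
    (hT : p.T < (oddSet z).card) : ∀ i ≤ j, AllGood p i z := by
  intro i
  induction i with
  | zero => exact fun _ σ _ l hl => goodAt_low l _ _ _ hb.hδ0 (by omega) _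
  | succ i ih =>
    intro hij σ hσ l hl
    rcases Nat.lt_or_ge l (i + 1) with hlt | hge
    · exact ih (by omega) σ hσ l (by omega)
    obtain rfl : l = i + 1 := by omega
    obtain ⟨τ, hτ, hτc⟩ := exists_canon σ
    obtain ⟨hcnt, hgood⟩ := hτc (oddSet z)
    by_contra hbad
    exact h ⟨τ, hτ, i, mem_range.2 (by omega), z, hz, hT, by rw [hcnt]; exact hσ,
      fun hg => hbad (hgood _ _ _ _ z hg), ih (by omega)⟩

open Classical in
/-- The probability of a first bad level. -/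
theorem fq_badAt_le {p : Par} (ok : Ok p) (hb : Base p) (σ₀ : Bij p.m p.k p.n) (l : ℕ) (x X : ℝ)
    (hX : 0 ≤ X)
    (hkey : 1 ≤ l → ∀ v : Fin p.k → ℤ, Nice l p.E₀ p.L p.u p.δ p.r v → kSum (2 ^ l) v p.m ≤ X)
    (hE : 1 ≤ p.E₀) :
    fq (BadAt p σ₀ l) ≤ (2 : ℝ) ^ (99 * x) *
        ((univ.filter fun w : Fin p.k → ZMod (2 * 2 ^ l) => ¬ GoodAt (l + 1) p.E₀ p.L p.δ (rep w)).card : ℝ)
          * (2 ^ p.m * ((2 : ℝ) ^ l) ^ p.m / ((2 : ℝ) ^ l) ^ p.k * X)
      + (2 : ℝ) ^ (-x) * 2 * (2 * (2 : ℝ) ^ l) ^ p.k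
          * (2 ^ p.m * ((2 : ℝ) ^ l) ^ p.m / ((2 : ℝ) ^ l) ^ p.k * X) := by
  set B : ℝ := 2 ^ p.m * ((2 : ℝ) ^ l) ^ p.m / ((2 : ℝ) ^ l) ^ p.k * X with hB
  have hB0 : 0 ≤ B := by positivity
  by_cases hl : l + 1 ≤ p.E₀
  · refine le_trans (fq_mono (q := fun _ => False) fun b ⟨z, _, _, _, hbad, _⟩ =>
      hbad (goodAt_low _ _ _ _ hb.hδ0 hl _)) ?_
    have : fq (ι := Fin p.n) (fun _ => False) = 0 := by simp [fq]
    rw [this]
    positivity
  have hl1 : 1 ≤ l := by omega
  have hkey' := hkey hl1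
  haveI : Nonempty (Fin p.n) := ⟨⟨0, by have := ok.hn; omega⟩⟩
  set M := 2 * 2 ^ l with hM
  have h2M : 2 ∣ M := dvd_mul_right 2 _
  have hlM : 2 ^ l ∣ M := dvd_mul_left _ 2
  have hl1M : 2 ^ (l + 1) ∣ M := by rw [hM, pow_succ, mul_comm]
  set S := univ.filter fun q : Fin p.n → ZMod M => p.T < (oddSet (rep q)).card ∧ p.u ≤ cnt (oddSet (rep q)) σ₀ ∧
    ¬ GoodAt (l + 1) p.E₀ p.L p.δ (blk (rep q) σ₀) ∧ AllGood p l (rep q) with hS
  have hev : ∀ b, BadAt p σ₀ l b → ∃ q ∈ S,
      (∑ e, if b e then gL (2 ^ l) (rep q) e else 0) = fun _ => ((half (rep q) : ℤ) : ZMod (2 ^ l)) := by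
    rintro b ⟨z, hz, hT, hu, hbad, hgood⟩
    obtain ⟨w, hw⟩ := exists_split M z
    refine ⟨fun a => (z a : ZMod M), ?_, ?_⟩
    · have hc : ∀ a, ((rep (fun a => (z a : ZMod M)) a : ℤ) : ZMod M) = (z a : ZMod M) := rep_cast z
      simp only [hS, mem_filter, mem_univ, true_and]
      rw [oddSet_congr h2M hc, allGood_congr h2M hlM hc]
      refine ⟨hT, hu, ?_, hgood⟩
      rwa [goodAt_congr (v := blk (rep fun a => (z a : ZMod M)) σ₀) (w := blk z σ₀) fun c => cast_dvd hl1M (hc _)]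
    · funext a
      rw [gL_sum]
      refine null_mod_linear (u := w) (2 ^ l) hz ?_ a
      simpa [hM] using hw
  refine (fq_mono hev).trans ((fq_exists _ _).trans ?_)
  simp only [fq_eq_bp]
  set pσ : Bij p.m p.k p.n → (Fin p.n → ZMod M) → ℝ := fun σ q => pr (fun _ => (1 / 2 : ℝ))
    (fun e => if e ∈ (univ.map (jkEdge (m := p.m) (k := p.k))).map (emap σ) then gL (2 ^ l) (rep q) e else 0) 0
    with hpσ
  have hblock : ∀ (σ : Bij p.m p.k p.n) (A : Finset (Fin p.k → ZMod M)),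
      ∑ q ∈ S, (if p.u ≤ cnt (oddSet (rep q)) σ ∧ (fun c => q (σ (Sum.inr c))) ∈ A then pσ σ q else 0)
        ≤ (A.card : ℝ) * B := by
    intro σ A
    have hA : ∑ v ∈ A.filter (fun v => Nice l p.E₀ p.L p.u p.δ p.r (rep v)), ∑ w : Fin p.m → ZMod M,
        pr (fun _ => (1 / 2 : ℝ)) (fun e => if e ∈ univ.map (jkEdge (m := p.m) (k := p.k))
          then gL (2 ^ l) (joinVec (rep v) w) e else 0) 0 ≤ (A.card : ℝ) * B := by
      refine (sum_le_card_nsmul _ _ B fun v hv => ?_).trans ?_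
      · refine (sum_pr_linear_le (2 ^ l) (rep v)).trans ?_
        rw [hB]
        push_cast
        exact mul_le_mul_of_nonneg_left (hkey' _ (mem_filter.1 hv).2) (by positivity)
      · rw [nsmul_eq_mul]
        exact mul_le_mul_of_nonneg_right (Nat.cast_le.2 (card_filter_le _ _)) hB0
    refine le_trans ?_ hA
    calc _ ≤ ∑ q : Fin p.n → ZMod M, (if (fun c => q (σ (Sum.inr c))) ∈ A ∧
          Nice l p.E₀ p.L p.u p.δ p.r (rep fun c => q (σ (Sum.inr c))) then pσ σ q else 0) := by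
          refine le_trans ?_ (sum_le_sum_of_subset_of_nonneg (subset_univ S) fun q _ _ => ?_)
          · refine sum_le_sum fun q hq => ?_
            simp only [hS, mem_filter, mem_univ, true_and] at hq
            by_cases h : p.u ≤ cnt (oddSet (rep q)) σ ∧ (fun c => q (σ (Sum.inr c))) ∈ A
            · rw [if_pos h, if_pos ⟨h.2, hb.hδ0, hb.hδ1, hb.hr0, hb.hr1, hb.hlam, hq.2.2.2 σ h.1,
                (le_of_le_of_eq h.1 (cnt_eq_oddIn (rep q) σ))⟩]
            · rw [if_neg h]; split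
              · exact pr_nonneg _ _
              · exact le_rfl
          · split
            · exact pr_nonneg _ _
            · exact le_rfl
      _ = _ := by
          rw [Fintype.sum_congr _ (fun q : Fin p.n → ZMod M => (fun (w : Fin p.m → ZMod M) (v : Fin p.k → ZMod M) =>
            if v ∈ A ∧ Nice l p.E₀ p.L p.u p.δ p.r (rep v) then
              pr (fun _ => (1 / 2 : ℝ)) (fun e => if e ∈ univ.map (jkEdge (m := p.m) (k := p.k))
                then gL (2 ^ l) (joinVec (rep v) w) e else 0) 0 else 0)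
              (fun a => q (σ (Sum.inl a))) (fun c => q (σ (Sum.inr c)))) fun q => by
            simp only [hpσ, pr_gL_map, rep_comp]]
          refine Eq.trans (sum_split σ fun (w : Fin p.m → ZMod M) (v : Fin p.k → ZMod M) =>
            if v ∈ A ∧ Nice l p.E₀ p.L p.u p.δ p.r (rep v) then
              pr (fun _ => (1 / 2 : ℝ)) (fun e => if e ∈ univ.map (jkEdge (m := p.m) (k := p.k))
                then gL (2 ^ l) (joinVec (rep v) w) e else 0) 0 else 0) ?_
          rw [sum_filter]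
          refine (sum_subset (subset_univ A) (fun v _ hv => by simp [hv])).symm.trans (sum_congr rfl fun v hv => ?_)
          by_cases h2 : Nice l p.E₀ p.L p.u p.δ p.r (rep v) <;> simp [hv, h2]
  have hN := card_bij_pos ok.hmk
  refine le_trans (sum_le_sum fun q hq => mix_lin ok _ _ (oddSet (rep q))
    (mem_filter.1 hq).2.1 σ₀ x) ?_
  rw [sum_add_distrib, ← mul_sum, ← mul_sum, sum_comm]
  refine add_le_add ?_ ?_
  · rw [mul_assoc]
    refine mul_le_mul_of_nonneg_left (le_trans (le_of_eq (sum_congr rfl fun q hq => ?_)) (hblock σ₀ _)) (by positivity)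
    simp only [hS, mem_filter, mem_univ, true_and] at hq
    rw [if_pos ⟨hq.2.1, mem_filter.2 ⟨mem_univ _, hq.2.2.1⟩⟩]
  · have hsum : ∑ σ : Bij p.m p.k p.n, ∑ q ∈ S, (if p.u ≤ cnt (oddSet (rep q)) σ then pσ σ q else 0)
        ≤ (Fintype.card (Bij p.m p.k p.n) : ℝ) * ((2 * (2 : ℝ) ^ l) ^ p.k * B) := by
      rw [← card_univ, ← nsmul_eq_mul]
      refine sum_le_card_nsmul _ _ _ fun σ _ => le_trans (le_of_eq (sum_congr rfl fun q _ => ?_))
        ((hblock σ univ).trans (le_of_eq ?_))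
      · simp
      · simp [M, ZMod.card]
    refine le_trans (mul_le_mul_of_nonneg_left hsum (by positivity)) ?_
    rw [show (2 : ℝ) ^ (-x) * (100 / (99 * (Fintype.card (Bij p.m p.k p.n) : ℝ))) *
        ((Fintype.card (Bij p.m p.k p.n) : ℝ) * ((2 * (2 : ℝ) ^ l) ^ p.k * B))
      = (2 : ℝ) ^ (-x) * (100 / 99) * (2 * (2 : ℝ) ^ l) ^ p.k * B by field_simp]
    gcongr
    norm_num

open Classical in
/-- The main first moment. -/
theorem fq_dense_le {p : Par} (ok : Ok p) (hb : Base p) [Nonempty (Bij p.m p.k p.n)] (j' : ℕ) (X : ℝ)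
    (hX : 0 ≤ X)
    (hkey : ∀ v : Fin p.k → ℤ, Nice (j' + 1) p.E₀ p.L p.u p.δ p.r v → kSum (2 ^ (j' + 1)) v p.m ≤ X)
    (hstar : ∀ v : Fin p.k → ℤ, ∀ i₀, Nice (j' + 1) p.E₀ p.L p.u p.δ p.r v →
      pr (fun _ => (1 / 2 : ℝ)) (fun b : {b : Fin p.k // b ≠ i₀} => (v b.1 : ZMod (2 ^ (j' + 1)))) 0
        ≤ 4 / (2 : ℝ) ^ (j' + 1)) :
    fq (DenseEv p) ≤ (∑ τ ∈ canon p.m p.k p.n, ∑ l ∈ range (j' + 1), fq (BadAt p τ l))
      + 70000 * ((2 : ℝ) ^ (j' + 1)) ^ p.m * X / ((2 : ℝ) ^ (j' + 1)) ^ 3 := by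
  set j := j' + 1 with hj
  set Q := 2 ^ j' with hQ
  have hPQ : 2 ^ j = 2 * Q := by rw [hQ, hj, pow_succ]; ring
  set P := 2 ^ j with hP
  haveI : NeZero (P * P / 2) := neZero_half j'
  haveI : Nonempty (Fin p.n) := ⟨⟨0, by have := ok.hn; omega⟩⟩
  have h2P : 2 ∣ P := hPQ ▸ dvd_mul_right 2 Q
  set MainEv := fun b => DenseEv p b ∧ ¬ ∃ τ ∈ canon p.m p.k p.n, ∃ l ∈ range j, BadAt p τ l b
  refine le_trans (fq_mono (q := fun b => (∃ τ ∈ canon p.m p.k p.n, ∃ l ∈ range j, BadAt p τ l b) ∨ MainEv b)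
    fun b hb => ?_) ((fq_or _ _).trans (add_le_add ((fq_exists _ _).trans
      (sum_le_sum fun τ _ => fq_exists _ _)) ?_))
  · by_cases h : ∃ τ ∈ canon p.m p.k p.n, ∃ l ∈ range j, BadAt p τ l b
    · exact Or.inl h
    · exact Or.inr ⟨hb, h⟩
  set S := univ.filter fun q : Fin p.n → ZMod P => p.T < (oddSet (rep q)).card ∧ AllGood p j (rep q) with hS
  set Ev : (Fin p.n → ZMod P) → Bool → (Sym2 (Fin p.n) → Bool) → Prop :=
    fun q t b => (∑ e, if b e then gQ P (rep q) e else 0)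
      = ((fun _ => ((half (rep q) + (if t then (Q : ℤ) else 0) : ℤ) : ZMod P)),
        ((2 * half (rep q) ^ 2 : ℤ) : ZMod (P * P / 2))) with hEv
  have hmany : ∀ b, MainEv b → (Q : ℝ) ≤ ∑ q ∈ S, ∑ t : Bool, (if Ev q t b then (1 : ℝ) else 0) := by
    rintro b ⟨⟨z, hz, hzT⟩, hnb⟩
    obtain ⟨i₀, hi₀⟩ := card_pos.1 (lt_of_le_of_lt (Nat.zero_le p.T) hzT)
    have hc := (mem_filter.1 hi₀).2
    let za : ℕ → (Fin p.n → ℤ) := fun a => (2 * (a : ℤ) + 1) • z
    let img : ℕ → Fin p.n → ZMod P := fun a i => (za a i : ZMod P)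
    have hmem : ∀ a, img a ∈ S ∧ ∃ t, Ev (img a) t b := by
      intro a
      have hna : IsNull b (za a) := hz.smul _
      have hTa : p.T < (oddSet (za a)).card := by
        have : oddSet (za a) = oddSet z := by
          unfold oddSet; simp [za, show (2 : ZMod 2) = 0 from by decide]
        rwa [this]
      have hg := dense_cover hb j b hnb (za a) hna hTa j le_rfl
      refine ⟨?_, ?_⟩
      · simp only [hS, mem_filter, mem_univ, true_and, img]
        rw [oddSet_congr h2P (rep_cast (za a)), allGood_congr h2P (dvd_refl P) (rep_cast (za a))]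
        exact ⟨hTa, hg⟩
      · obtain ⟨w, hw⟩ := exists_split P (za a)
        have hw' : za a = rep (fun i => (za a i : ZMod P)) + (2 * (Q : ℤ)) • w := by
          rw [show (2 * (Q : ℤ)) = (P : ℤ) by rw [hPQ]; push_cast; ring]; exact hw
        obtain ⟨t, h1, h2⟩ := null_mod_quad Q hna hw'
        rw [← hPQ] at h1 h2
        refine ⟨t, ?_⟩
        simp only [hEv, sum_ite_prod]
        refine Prod.ext ?_ ?_
        · funext i
          simp only [gQ]
          rw [gL_sum]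
          exact h1 i
        · simp only [gQ]
          rw [← h2, Int.cast_sum]
          refine sum_congr rfl fun e _ => ?_
          simp only [img]
          split <;> simp
    have hinj : Set.InjOn img (range Q : Finset ℕ) := by
      intro a ha a' ha' h
      simp only [coe_range, Set.mem_Iio] at ha ha'
      have h2 := congrFun h i₀
      simp only [img, za, Pi.smul_apply, smul_eq_mul, Int.cast_mul] at h2
      have hunit : IsUnit ((z i₀ : ℤ) : ZMod P) := by
        rw [ZMod.coe_int_isUnit_iff_isCoprime, hP]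
        push_cast
        refine IsCoprime.pow_left ?_
        have h2 : ¬ (2 : ℤ) ∣ z i₀ := fun h => hc ((ZMod.intCast_zmod_eq_zero_iff_dvd _ 2).2 h)
        exact Int.prime_two.coprime_iff_not_dvd.2 h2
      have h3 := hunit.mul_right_cancel h2
      have h4 : ((2 * a + 1 : ℕ) : ZMod P) = ((2 * a' + 1 : ℕ) : ZMod P) := by
        push_cast at h3 ⊢; exact h3
      rw [ZMod.natCast_eq_natCast_iff', Nat.mod_eq_of_lt (by omega), Nat.mod_eq_of_lt (by omega)] at h4
      omega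
    calc (Q : ℝ) = ∑ _q ∈ (range Q).image img, (1 : ℝ) := by
          rw [sum_const, card_image_of_injOn hinj, card_range, nsmul_one]
      _ ≤ ∑ q ∈ (range Q).image img, ∑ t : Bool, (if Ev q t b then (1 : ℝ) else 0) := by
          refine sum_le_sum fun q hq => ?_
          obtain ⟨a, -, rfl⟩ := mem_image.1 hq
          obtain ⟨t, ht⟩ := (hmem a).2
          refine le_trans ?_ (single_le_sum (fun t' _ => by split <;> norm_num) (mem_univ t))
          rw [if_pos ht]
      _ ≤ _ := by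
          refine sum_le_sum_of_subset_of_nonneg ?_ fun q _ _ => sum_nonneg fun t _ => by split <;> norm_num
          intro q hq
          obtain ⟨a, -, rfl⟩ := mem_image.1 hq
          exact (hmem a).1
  have hQ0 : (0 : ℝ) < Q := by positivity
  have h1 : (Q : ℝ) * fq MainEv ≤ ∑ q ∈ S, ∑ t : Bool, fq (Ev q t) := by
    unfold fq
    simp only [← sum_div]
    rw [mul_div_assoc']
    refine div_le_div_of_nonneg_right ?_ (by positivity)
    rw [mul_sum]
    simp only [sum_comm (t := (univ : Finset (Sym2 (Fin p.n) → Bool)))]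
    refine sum_le_sum fun b _ => ?_
    by_cases hb : MainEv b
    · rw [if_pos hb, mul_one]
      refine le_trans (hmany b hb) (le_of_eq (sum_congr rfl fun q _ => sum_congr rfl fun t _ => ?_))
      by_cases hq : Ev q t b <;> simp [hq]
    · rw [if_neg hb, mul_zero]
      exact sum_nonneg fun q _ => sum_nonneg fun t _ => by split <;> norm_num
  set C : ℝ := 100 / (99 * (Fintype.card (Bij p.m p.k p.n) : ℝ) * p.u) with hC
  set W : ℝ := 2 * (4 / (P : ℝ)) * (4 * (P : ℝ) ^ p.m / (P : ℝ) ^ (p.k + 1)) * X with hW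
  have hP0 : (0 : ℝ) < (P : ℝ) := by positivity
  have hW0 : 0 ≤ W := by positivity
  set pq : Bij p.m p.k p.n → Fin p.k → (Fin p.n → ZMod P) → ℝ := fun σ c q => pr (fun _ => (1 / 2 : ℝ))
    (fun e => if e ∈ (univ.map (allEdge (m := p.m) c)).map (emap σ) then gQ P (rep q) e else 0) 0 with hpq
  have hblock : ∀ (σ : Bij p.m p.k p.n) (c : Fin p.k),
      ∑ q ∈ S, (if p.u ≤ cnt (oddSet (rep q)) σ ∧ σ (Sum.inr c) ∈ oddSet (rep q) then pq σ c q else 0)
        ≤ (P : ℝ) ^ p.k * W := by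
    intro σ c
    set G : (Fin p.k → ZMod P) → Prop := fun v =>
      Nice j p.E₀ p.L p.u p.δ p.r (rep v) ∧ (rep v c : ZMod 2) ≠ 0
    set F : (Fin p.m → ZMod P) → (Fin p.k → ZMod P) → ℝ := fun w v => if G v then
      pr (fun _ => (1 / 2 : ℝ)) (fun e => if e ∈ univ.map (allEdge (m := p.m) c)
        then gQ P (joinVec (rep v) w) e else 0) 0 else 0 with hF
    have hF0 : ∀ w v, 0 ≤ F w v := fun w v => by
      simp only [hF]; split
      · exact pr_nonneg _ _
      · exact le_rfl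
    calc _ ≤ ∑ q : Fin p.n → ZMod P, F (fun a => q (σ (Sum.inl a))) (fun c => q (σ (Sum.inr c))) := by
          refine le_trans (sum_le_sum fun q hq => ?_)
            (sum_le_sum_of_subset_of_nonneg (subset_univ S) fun q _ _ => hF0 _ _)
          simp only [hS, mem_filter, mem_univ, true_and] at hq
          by_cases h : p.u ≤ cnt (oddSet (rep q)) σ ∧ σ (Sum.inr c) ∈ oddSet (rep q)
          · have hG : G (fun c => q (σ (Sum.inr c))) := ⟨⟨hb.hδ0, hb.hδ1, hb.hr0, hb.hr1, hb.hlam, hq.2 σ h.1,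
              le_of_le_of_eq h.1 (cnt_eq_oddIn (rep q) σ)⟩, (mem_filter.1 h.2).2⟩
            rw [if_pos h]
            simp only [hF, hpq, if_pos hG, pr_gQ_map, rep_comp, le_refl]
          · rw [if_neg h]; exact hF0 _ _
      _ = ∑ v : Fin p.k → ZMod P, ∑ w : Fin p.m → ZMod P, F w v := sum_split σ F
      _ ≤ (Fintype.card (Fin p.k → ZMod P) : ℕ) • W := by
          rw [← card_univ]
          refine sum_le_card_nsmul _ _ _ fun v _ => ?_
          by_cases hG : G v
          · simp only [hF, if_pos hG]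
            refine (sum_pr_quad_le j' (rep v) c hG.2).trans ?_
            have hk' := hkey (rep v) hG.1
            have hs := hstar (rep v) c hG.1
            have hks0 : 0 ≤ kSum P (rep v) p.m := sum_nonneg fun R _ => by
              split
              · exact mul_nonneg (mwt_nonneg R) (Nat.cast_nonneg _)
              · exact le_rfl
            rw [show (2 : ℝ) ^ j = (P : ℝ) by rw [hP]; push_cast; ring] at hs
            rw [hW]
            refine mul_le_mul (mul_le_mul_of_nonneg_right ?_ (by positivity)) hk' hks0 (by positivity)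
            exact mul_le_mul_of_nonneg_left hs zero_le_two
          · simp only [hF, if_neg hG, sum_const_zero]; exact hW0
      _ = _ := by simp [ZMod.card]
  have h2 : ∀ t : Bool, ∑ q ∈ S, fq (Ev q t) ≤ C * ((Fintype.card (Bij p.m p.k p.n) : ℝ) * p.k * ((P : ℝ) ^ p.k * W)) := by
    intro t
    simp only [hEv, fq_eq_bp]
    refine (sum_le_sum fun q hq => mix_quad ok _ _ (oddSet (rep q)) (mem_filter.1 hq).2.1).trans ?_
    rw [← mul_sum, sum_comm]
    refine mul_le_mul_of_nonneg_left ?_ (by positivity)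
    rw [mul_assoc, ← card_univ, ← nsmul_eq_mul]
    refine sum_le_card_nsmul _ _ _ fun σ _ => ?_
    rw [sum_comm]
    refine le_trans (sum_le_card_nsmul _ _ _ fun c _ => hblock σ c) ?_
    simp
  have h3 : (Q : ℝ) * fq MainEv ≤ 2 * (C * ((Fintype.card (Bij p.m p.k p.n) : ℝ) * p.k * ((P : ℝ) ^ p.k * W))) := by
    refine h1.trans ?_
    rw [sum_comm, Fintype.sum_bool]
    linarith [h2 true, h2 false]
  have hN := card_bij_pos ok.hmk
  have hu0 : (0 : ℝ) < p.u := by
    have : 0 < p.u := by have := ok.hu; omega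
    exact_mod_cast this
  have hku : (p.k : ℝ) ≤ 500 * p.u := by exact_mod_cast ok.hku
  have hPR : (P : ℝ) = 2 * (Q : ℝ) := by rw [hPQ]; push_cast; ring
  rw [show ((2 : ℝ) ^ j) = (P : ℝ) by rw [hP]; push_cast; ring]
  refine le_of_mul_le_mul_left (h3.trans ?_) hQ0
  have e : C * ((Fintype.card (Bij p.m p.k p.n) : ℝ) * p.k * ((P : ℝ) ^ p.k * W))
      = (p.k / p.u : ℝ) * (3200 / 99 * (P : ℝ) ^ p.m * X / (P : ℝ) ^ 2) := by
    rw [hC, hW, pow_succ]; field_simp; ring
  rw [e, show (Q : ℝ) * (70000 * (P : ℝ) ^ p.m * X / (P : ℝ) ^ 3) = 35000 * (P : ℝ) ^ p.m * X / (P : ℝ) ^ 2 by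
    rw [show (Q : ℝ) = P / 2 by rw [hPR]; ring]; field_simp; ring]
  have hr : (p.k / p.u : ℝ) ≤ 500 := by rw [div_le_iff₀ hu0]; exact hku
  have h0 : 0 ≤ (P : ℝ) ^ p.m * X / (P : ℝ) ^ 2 := by positivity
  calc 2 * ((p.k / p.u : ℝ) * (3200 / 99 * (P : ℝ) ^ p.m * X / (P : ℝ) ^ 2))
      = (p.k / p.u : ℝ) * (6400 / 99) * ((P : ℝ) ^ p.m * X / (P : ℝ) ^ 2) := by ring
    _ ≤ 35000 * ((P : ℝ) ^ p.m * X / (P : ℝ) ^ 2) := mul_le_mul_of_nonneg_right (by linarith) h0
    _ = _ := by ring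

end

end Vale.Agent.P160.Rate2
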