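import Vale.Agent.P160.Rate2.Transfer

/-!
Uniformly random relabellings of the index set, edge frequencies, and transport of lazy atoms.
-/

namespace Vale.Agent.P160.Rate2

open Finset Vale.Agent.P160.Rate

set_option linter.unusedSectionVars false

noncomputable section

variable {m k n : ℕ}

/-- A labelling of the two blocks. -/
abbrev Bij (m k n : ℕ) := Fin m ⊕ Fin k ≃ Fin n

theorem card_bij_pos (h : m + k = n) : (0 : ℝ) < Fintype.card (Bij m k n) := by
  have : Nonempty (Bij m k n) := ⟨finSumFinEquiv.trans (finCongr h)⟩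
  exact_mod_cast Fintype.card_pos

theorem sum_one_point (f : Fin m ⊕ Fin k → ℝ) (a : Fin n) :
    (n : ℝ) * ∑ σ : Bij m k n, f (σ.symm a) = Fintype.card (Bij m k n) * ∑ x, f x := by
  have hinv : ∀ a', ∑ σ : Bij m k n, f (σ.symm a') = ∑ σ : Bij m k n, f (σ.symm a) := fun a' =>
    Fintype.sum_equiv (
      (⟨fun σ => σ.trans (Equiv.swap a' a), fun σ => σ.trans (Equiv.swap a' a),
        fun σ => by ext x; simp, fun σ => by ext x; simp⟩ : Bij m k n ≃ Bij m k n)) _ _ fun σ => by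
      simp
  calc (n : ℝ) * ∑ σ : Bij m k n, f (σ.symm a) = ∑ a' : Fin n, ∑ σ : Bij m k n, f (σ.symm a') := by
        simp [hinv]
    _ = ∑ σ : Bij m k n, ∑ x, f x := by
        rw [sum_comm]; exact sum_congr rfl fun σ _ => σ.symm.sum_comp f
    _ = _ := by rw [sum_const, card_univ, nsmul_eq_mul]

theorem sum_two_point (f : Fin m ⊕ Fin k → Fin m ⊕ Fin k → ℝ) {a b : Fin n} (hab : a ≠ b) :
    ((n : ℝ) * (n - 1)) * ∑ σ : Bij m k n, f (σ.symm a) (σ.symm b)
      = Fintype.card (Bij m k n) * ∑ x, ∑ y, if x = y then 0 else f x y := by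
  have hinv : ∀ a' b' : Fin n, a' ≠ b' →
      ∑ σ : Bij m k n, f (σ.symm a') (σ.symm b') = ∑ σ : Bij m k n, f (σ.symm a) (σ.symm b) := by
    intro a' b' h'
    set c := Equiv.swap a a' b
    have hc : a' ≠ c := fun h => hab (by
      have := congrArg (Equiv.swap a a') h
      simpa [c] using this)
    set π : Equiv.Perm (Fin n) := (Equiv.swap a a').trans (Equiv.swap c b')
    have hπa : π a = a' := by simp [π, Equiv.swap_apply_of_ne_of_ne hc h']
    have hπb : π b = b' := by simp [π, c]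
    let E : Bij m k n ≃ Bij m k n := ⟨fun σ => σ.trans π, fun σ => σ.trans π.symm,
      fun σ => by ext x; simp, fun σ => by ext x; simp⟩
    refine (Fintype.sum_equiv E _ _ fun σ => ?_).symm
    have e1 : π.symm a' = a := by rw [← hπa, Equiv.symm_apply_apply]
    have e2 : π.symm b' = b := by rw [← hπb, Equiv.symm_apply_apply]
    simp [E, e1, e2]
  calc ((n : ℝ) * (n - 1)) * ∑ σ : Bij m k n, f (σ.symm a) (σ.symm b)
      = ∑ a' : Fin n, ∑ b' : Fin n, if a' = b' then 0 else ∑ σ : Bij m k n, f (σ.symm a') (σ.symm b') := by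
        have : ∀ a' b' : Fin n, (if a' = b' then 0 else ∑ σ : Bij m k n, f (σ.symm a') (σ.symm b'))
            = (∑ σ : Bij m k n, f (σ.symm a) (σ.symm b))
              - (if a' = b' then ∑ σ : Bij m k n, f (σ.symm a) (σ.symm b) else 0) := by
          intro a' b'; split_ifs with h
          · simp
          · rw [sub_zero, hinv a' b' h]
        simp [this, sum_sub_distrib]
        ring
    _ = ∑ σ : Bij m k n, ∑ x, ∑ y, if x = y then 0 else f x y := by
        have : ∀ a' b' : Fin n, (if a' = b' then 0 else ∑ σ : Bij m k n, f (σ.symm a') (σ.symm b'))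
            = ∑ σ : Bij m k n, if σ.symm a' = σ.symm b' then 0 else f (σ.symm a') (σ.symm b') := by
          intro a' b'; split_ifs with h
          · simp [h]
          · exact sum_congr rfl fun σ _ => by rw [if_neg fun h2 => h (σ.symm.injective h2)]
        simp only [this]
        rw [sum_congr rfl fun a' _ => sum_comm, sum_comm]
        refine sum_congr rfl fun σ _ => ?_
        rw [← σ.symm.sum_comp fun x => ∑ y, if x = y then 0 else f x y]
        exact sum_congr rfl fun a' _ => σ.symm.sum_comp fun y => if σ.symm a' = y then 0 else f (σ.symm a') y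
    _ = _ := by rw [sum_const, card_univ, nsmul_eq_mul]

/-- Indicator of the second block. -/
def rgt (x : Fin m ⊕ Fin k) : ℝ := Sum.elim (fun _ => 0) (fun _ => 1) x

theorem rgt_sq (x : Fin m ⊕ Fin k) : rgt x * rgt x = rgt x := by cases x <;> simp [rgt]

theorem rgt_nonneg (x : Fin m ⊕ Fin k) : 0 ≤ rgt x := by cases x <;> simp [rgt]

theorem sum_rgt : ∑ x : Fin m ⊕ Fin k, rgt x = k := by simp [rgt]

theorem sum_off_rgt : ∑ x : Fin m ⊕ Fin k, ∑ y, (if x = y then 0 else rgt x * rgt y) = (k : ℝ) * k - k := by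
  have : ∀ x y : Fin m ⊕ Fin k, (if x = y then 0 else rgt x * rgt y)
      = rgt x * rgt y - (if x = y then rgt x else 0) := by
    intro x y; split_ifs with h
    · subst h; simp [rgt_sq]
    · simp
  simp only [this, sum_sub_distrib, ← mul_sum, ← sum_mul, sum_rgt, sum_ite_eq, mem_univ, if_true]

/-- The number of members of `O` sent to the second block. -/
def cnt (O : Finset (Fin n)) (σ : Bij m k n) : ℕ := (univ.filter fun c : Fin k => σ (Sum.inr c) ∈ O).card

theorem cnt_eq (O : Finset (Fin n)) (σ : Bij m k n) : (cnt O σ : ℝ) = ∑ a ∈ O, rgt (σ.symm a) := by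
  have h : ∑ a ∈ O, rgt (σ.symm a) = ∑ x : Fin m ⊕ Fin k, if σ x ∈ O then rgt x else 0 := by
    rw [← Equiv.sum_comp σ.symm (fun x => if σ x ∈ O then rgt x else 0)]
    simp
  rw [h, Fintype.sum_sum_type]
  simp [cnt, rgt, sum_boole]

/-- Few labellings send few members of `O` to the second block. -/
theorem few_bad (h : m + k = n) (hn : 2 ≤ n) (O : Finset (Fin n)) (u : ℕ)
    (hu : 2 * (u : ℝ) * n ≤ O.card * k) :
    ((univ.filter fun σ : Bij m k n => cnt O σ < u).card : ℝ) * ((O.card * k : ℝ) / n)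
      ≤ 4 * Fintype.card (Bij m k n) := by
  have hn0 : (0 : ℝ) < n := by exact_mod_cast (by omega : 0 < n)
  set μ : ℝ := (O.card * k : ℝ) / n with hμ
  set N : ℝ := ((Fintype.card (Bij m k n) : ℕ) : ℝ) with hN
  have hN0 : 0 ≤ N := Nat.cast_nonneg _
  have hμ0 : 0 ≤ μ := by positivity
  have hu' : 2 * (u : ℝ) ≤ μ := by rw [hμ, le_div_iff₀ hn0]; exact hu
  have h1 : ∑ σ : Bij m k n, (cnt O σ : ℝ) = N * μ := by
    simp only [cnt_eq]
    rw [sum_comm]
    have : ∀ a : Fin n, ∑ σ : Bij m k n, rgt (σ.symm a) = N * k / n := fun a => by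
      rw [eq_div_iff hn0.ne', mul_comm, sum_one_point (fun x => rgt x) a, sum_rgt]
    simp only [this, sum_const, nsmul_eq_mul, hμ]
    ring
  have h2 : ∑ σ : Bij m k n, (cnt O σ : ℝ) ^ 2 ≤ N * μ + N * μ ^ 2 := by
    simp only [cnt_eq, sq, sum_mul_sum]
    rw [sum_comm, sum_congr rfl fun a _ => sum_comm]
    have hd : ∀ a : Fin n, ∑ σ : Bij m k n, rgt (σ.symm a) * rgt (σ.symm a) = N * k / n := fun a => by
      simp only [rgt_sq]
      rw [eq_div_iff hn0.ne', mul_comm, sum_one_point (fun x => rgt x) a, sum_rgt]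
    have hoff : ∀ a b : Fin n, a ≠ b →
        ∑ σ : Bij m k n, rgt (σ.symm a) * rgt (σ.symm b) = N * ((k : ℝ) * k - k) / (n * (n - 1)) := fun a b hab => by
      have hn1 : (0 : ℝ) < (n : ℝ) * (n - 1) := mul_pos hn0 (by
        have : (2 : ℝ) ≤ n := by exact_mod_cast hn
        linarith)
      rw [eq_div_iff hn1.ne', mul_comm, sum_two_point (fun x y => rgt x * rgt y) hab, sum_off_rgt]
    have : ∀ a ∈ O, ∑ b ∈ O, ∑ σ : Bij m k n, rgt (σ.symm a) * rgt (σ.symm b)
        = N * k / n + ((O.card : ℝ) - 1) * (N * ((k : ℝ) * k - k) / (n * (n - 1))) := by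
      intro a ha
      rw [← add_sum_erase _ _ ha, hd, sum_congr rfl fun b hb => hoff a b (mem_erase.1 hb).1.symm, sum_const,
        card_erase_of_mem ha, nsmul_eq_mul, Nat.cast_sub (card_pos.2 ⟨a, ha⟩)]
      simp
    rw [sum_congr rfl this, sum_const, nsmul_eq_mul]
    have hO : (O.card : ℝ) ≤ n := by
      have : O.card ≤ n := (card_le_univ O).trans (by simp)
      exact_mod_cast this
    have hn1 : (1 : ℝ) < n := by exact_mod_cast (by omega : 1 < n)
    have hkey : ((O.card : ℝ) - 1) * ((k : ℝ) * k - k) * n ≤ (O.card : ℝ) * k * k * (n - 1) := by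
      rcases Nat.eq_zero_or_pos k with hk | hk
      · simp [hk]
      have hk1 : (1 : ℝ) ≤ k := by exact_mod_cast hk
      rcases Nat.eq_zero_or_pos O.card with hz | hp
      · rw [hz]; simp only [Nat.cast_zero, zero_sub, zero_mul]
        nlinarith [mul_nonneg (mul_nonneg (show (0 : ℝ) ≤ k by linarith) (show (0 : ℝ) ≤ (k : ℝ) - 1 by linarith)) hn0.le]
      have ho1 : (1 : ℝ) ≤ O.card := by exact_mod_cast hp
      have e1 : ((O.card : ℝ) - 1) * n ≤ O.card * ((n : ℝ) - 1) := by linarith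
      have e2 : (k : ℝ) * k - k ≤ k * k := by linarith
      calc ((O.card : ℝ) - 1) * ((k : ℝ) * k - k) * n = (((O.card : ℝ) - 1) * n) * ((k : ℝ) * k - k) := by ring
        _ ≤ (O.card * ((n : ℝ) - 1)) * (k * k) := mul_le_mul e1 e2 (by nlinarith) (by nlinarith)
        _ = _ := by ring
    rw [hμ, mul_add]
    refine add_le_add (le_of_eq (by ring)) ?_
    have e : (O.card : ℝ) * (((O.card : ℝ) - 1) * (N * ((k : ℝ) * k - k) / (n * (n - 1))))
        = N * O.card / (n * n * (n - 1)) * (((O.card : ℝ) - 1) * ((k : ℝ) * k - k) * n) := by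
      field_simp
    rw [e]
    refine (mul_le_mul_of_nonneg_left hkey (by
      have : (0 : ℝ) ≤ n * n * (n - 1) := by nlinarith
      positivity)).trans (le_of_eq ?_)
    have hn2 : (n : ℝ) - 1 ≠ 0 := by linarith
    field_simp
  have h3 : ∑ σ : Bij m k n, ((cnt O σ : ℝ) - μ) ^ 2 ≤ N * μ := by
    have : ∀ σ : Bij m k n, ((cnt O σ : ℝ) - μ) ^ 2 = (cnt O σ : ℝ) ^ 2 - 2 * μ * cnt O σ + μ ^ 2 :=
      fun σ => by ring
    simp only [this, sum_add_distrib, sum_sub_distrib, ← mul_sum, h1, sum_const, card_univ, nsmul_eq_mul, ← hN]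
    nlinarith
  have h4 : ((univ.filter fun σ : Bij m k n => cnt O σ < u).card : ℝ) * (μ / 2) ^ 2 ≤ N * μ := by
    refine le_trans ?_ ((sum_le_sum_of_subset_of_nonneg (subset_univ (univ.filter fun σ : Bij m k n => cnt O σ < u))
      fun σ _ _ => sq_nonneg _).trans h3)
    rw [← nsmul_eq_mul]
    refine card_nsmul_le_sum _ _ _ fun σ hσ => ?_
    have : (cnt O σ : ℝ) ≤ u := by exact_mod_cast (mem_filter.1 hσ).2.le
    rw [show ((cnt O σ : ℝ) - μ) ^ 2 = (μ - cnt O σ) ^ 2 by ring]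
    exact pow_le_pow_left₀ (by linarith) (by linarith) 2
  rcases eq_or_lt_of_le hμ0 with h0 | hpos
  · rw [← h0]; simp; linarith
  · nlinarith

/-- An edge joins the two blocks of a labelling, or touches a centre. -/
def cross (σ : Bij m k n) (a b : Fin n) : ℝ :=
  rgt (σ.symm a) + rgt (σ.symm b) - 2 * (rgt (σ.symm a) * rgt (σ.symm b))

theorem cross_nonneg (σ : Bij m k n) (a b : Fin n) : 0 ≤ cross σ a b := by
  unfold cross rgt
  cases σ.symm a <;> cases σ.symm b <;> norm_num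

theorem sum_cross (h : m + k = n) {a b : Fin n} (hab : a ≠ b) :
    ((n : ℝ) * (n - 1)) * ∑ σ : Bij m k n, cross σ a b = Fintype.card (Bij m k n) * (2 * m * k) := by
  unfold cross
  rw [sum_two_point (fun x y => rgt x + rgt y - 2 * (rgt x * rgt y)) hab]
  congr 1
  have hs : ∀ x y : Fin m ⊕ Fin k, (if x = y then 0 else rgt x + rgt y - 2 * (rgt x * rgt y))
      = rgt x + rgt y - 2 * (rgt x * rgt y) := by
    intro x y; split_ifs with h
    · subst h; rw [rgt_sq]; ring
    · rfl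
  simp only [hs, sum_add_distrib, sum_sub_distrib, sum_const, card_univ, nsmul_eq_mul, ← mul_sum, ← sum_mul,
    sum_rgt, Fintype.card_sum, Fintype.card_fin]
  push_cast
  ring

/-- The edge image of a set of edges of the two-block model. -/
def emap (σ : Bij m k n) : Sym2 (Fin m ⊕ Fin k) ↪ Sym2 (Fin n) :=
  ⟨Sym2.map σ, Sym2.map.injective σ.injective⟩

theorem mem_cross (σ : Bij m k n) (a b : Fin n)
    (h : s(a, b) ∈ (univ.map (jkEdge (m := m) (k := k))).map (emap σ)) : a ≠ b ∧ cross σ a b = 1 := by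
  obtain ⟨e, he, hp⟩ := mem_map.1 h
  obtain ⟨⟨r, c⟩, -, rfl⟩ := mem_map.1 he
  have hp' : s(σ (Sum.inl r), σ (Sum.inr c)) = s(a, b) := hp
  rcases Sym2.eq_iff.1 hp' with ⟨rfl, rfl⟩ | ⟨rfl, rfl⟩ <;> simp [cross, rgt]

theorem mem_all (σ : Bij m k n) (i₀ : Fin k) (a b : Fin n)
    (h : s(a, b) ∈ (univ.map (allEdge (m := m) i₀)).map (emap σ)) :
    a ≠ b ∧ (cross σ a b = 1 ∨ σ (Sum.inr i₀) = a ∨ σ (Sum.inr i₀) = b) := by
  obtain ⟨e, he, hp⟩ := mem_map.1 h
  obtain ⟨p, -, rfl⟩ := mem_map.1 he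
  rcases p with ⟨r, c⟩ | c
  · have hp' : s(σ (Sum.inl r), σ (Sum.inr c)) = s(a, b) := hp
    rcases Sym2.eq_iff.1 hp' with ⟨rfl, rfl⟩ | ⟨rfl, rfl⟩ <;> simp [cross, rgt]
  · have hp' : s(σ (Sum.inr i₀), σ (Sum.inr c.1)) = s(a, b) := hp
    rcases Sym2.eq_iff.1 hp' with ⟨rfl, rfl⟩ | ⟨rfl, rfl⟩ <;> simp [c.2, Ne.symm c.2]

/-- Transport of a lazy atom along an equivalence and an injective homomorphism. -/
theorem pr_transport {ι κ G G' : Type*} [Fintype ι] [DecidableEq ι] [Fintype κ] [DecidableEq κ]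
    [AddCommGroup G] [Fintype G] [DecidableEq G] [AddCommGroup G'] [Fintype G'] [DecidableEq G']
    (e : κ ≃ ι) (φ : G →+ G') (hφ : Function.Injective φ) (t : ℝ) (g : κ → G) (g' : ι → G')
    (h : ∀ a, g' (e a) = φ (g a)) : pr (fun _ => t) g' 0 = pr (fun _ => t) g 0 := by
  unfold pr
  refine Fintype.sum_equiv (e.symm.arrowCongr (Equiv.refl SignType)) _ _ fun x => ?_
  set y := (e.symm.arrowCongr (Equiv.refl SignType)) x with hy
  have hya : ∀ a, y a = x (e a) := fun a => by simp [hy, Equiv.arrowCongr]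
  have h1 : tot g' x = φ (tot g y) := by
    unfold tot
    rw [map_sum, ← e.sum_comp]
    exact sum_congr rfl fun a _ => by rw [h, hya, map_zsmul]
  have h2 : fw (fun _ : ι => t) x = fw (fun _ : κ => t) y := by
    unfold fw
    rw [← e.prod_comp]
    exact prod_congr rfl fun a _ => by rw [hya]
  rw [h1, h2]
  exact if_congr (by rw [map_eq_zero_iff φ hφ]) rfl rfl

theorem ev_map (σ : Bij m k n) (z : Fin n → ℤ) (e : Sym2 (Fin m ⊕ Fin k)) (i : Fin m ⊕ Fin k) :
    ev z (Sym2.map σ e) (σ i) = ev (fun a => z (σ a)) e i := by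
  induction e using Sym2.ind with
  | h a b => simp [ev_mk]

theorem qv_map (σ : Bij m k n) (z : Fin n → ℤ) (e : Sym2 (Fin m ⊕ Fin k)) :
    qv z (Sym2.map σ e) = qv (fun a => z (σ a)) e := by
  unfold qv
  rw [← σ.sum_comp]
  exact sum_congr rfl fun a _ => by rw [ev_map]

theorem pr_gQ_map (σ : Bij m k n) (P : ℕ) [NeZero P] [NeZero (P * P / 2)] (z : Fin n → ℤ)
    (H : Finset (Sym2 (Fin m ⊕ Fin k))) :
    pr (fun _ => (1 / 2 : ℝ)) (fun e => if e ∈ H.map (emap σ) then gQ P z e else 0) 0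
      = pr (fun _ => (1 / 2 : ℝ)) (fun e => if e ∈ H then gQ P (fun a => z (σ a)) e else 0) 0 := by
  let E : Sym2 (Fin m ⊕ Fin k) ≃ Sym2 (Fin n) :=
    ⟨Sym2.map σ, Sym2.map σ.symm, fun e => by simp [Sym2.map_map], fun e => by simp [Sym2.map_map]⟩
  let φ : ((Fin m ⊕ Fin k → ZMod P) × ZMod (P * P / 2)) →+ ((Fin n → ZMod P) × ZMod (P * P / 2)) :=
    { toFun := fun f => (fun a => f.1 (σ.symm a), f.2)
      map_zero' := rfl
      map_add' := fun f g => rfl }
  have hφ : Function.Injective φ := by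
    intro f g h
    refine Prod.ext (funext fun a => ?_) (congrArg Prod.snd h :)
    have := congrFun (congrArg Prod.fst h) (σ a)
    simpa [φ] using this
  refine pr_transport E φ hφ _ _ _ fun e => ?_
  have hmem : E e ∈ H.map (emap σ) ↔ e ∈ H := mem_map' (emap σ)
  by_cases he : e ∈ H
  · rw [if_pos (hmem.2 he), if_pos he]
    refine Prod.ext (funext fun a => ?_) ?_
    · simp only [gQ, gL, φ, E, Equiv.coe_fn_mk, AddMonoidHom.coe_mk, ZeroHom.coe_mk]
      rw [← ev_map σ z e (σ.symm a), σ.apply_symm_apply]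
    · simp [gQ, φ, E, qv_map]
  · rw [if_neg (fun h => he (hmem.1 h)), if_neg he, map_zero]

theorem pr_gL_map (σ : Bij m k n) (P : ℕ) [NeZero P] (z : Fin n → ℤ)
    (H : Finset (Sym2 (Fin m ⊕ Fin k))) :
    pr (fun _ => (1 / 2 : ℝ)) (fun e => if e ∈ H.map (emap σ) then gL P z e else 0) 0
      = pr (fun _ => (1 / 2 : ℝ)) (fun e => if e ∈ H then gL P (fun a => z (σ a)) e else 0) 0 := by
  let E : Sym2 (Fin m ⊕ Fin k) ≃ Sym2 (Fin n) :=
    ⟨Sym2.map σ, Sym2.map σ.symm, fun e => by simp [Sym2.map_map], fun e => by simp [Sym2.map_map]⟩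
  let φ : (Fin m ⊕ Fin k → ZMod P) →+ (Fin n → ZMod P) :=
    { toFun := fun f a => f (σ.symm a)
      map_zero' := rfl
      map_add' := fun f g => rfl }
  have hφ : Function.Injective φ := by
    intro f g h
    funext a
    have := congrFun h (σ a)
    simpa [φ] using this
  refine pr_transport E φ hφ _ _ _ fun e => ?_
  have hmem : E e ∈ H.map (emap σ) ↔ e ∈ H := mem_map' (emap σ)
  by_cases he : e ∈ H
  · rw [if_pos (hmem.2 he), if_pos he]
    funext a
    simp only [gL, φ, E, Equiv.coe_fn_mk, AddMonoidHom.coe_mk, ZeroHom.coe_mk]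
    rw [← ev_map σ z e (σ.symm a), σ.apply_symm_apply]
  · rw [if_neg (fun h => he (hmem.1 h)), if_neg he, map_zero]

end

end Vale.Agent.P160.Rate2
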