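import Vale.Agent.P160.Rate2.Events
import Vale.Agent.P160.Defs

/-!
The singularity probability of symmetric sign matrices is at most `(4/5) ^ n`.
-/

namespace Vale.Agent.P160.Rate2

open Finset Filter Vale.Agent.P160.Rate

set_option linter.unusedSectionVars false

noncomputable section

theorem prob_le_fq (n : ℕ) :
    prob n (fun M => M.det = 0) ≤ fq (ι := Fin n) (fun b => ∃ z, IsNull b z ∧ ∃ i, (z i : ZMod 2) ≠ 0) := by
  classical
  let e : (Sym2 (Fin n) → Bool) ≃ (Sym2 (Fin n) → Bool) :=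
    ⟨fun x e => !x e, fun x e => !x e, fun x => by simp, fun x => by simp⟩
  unfold prob fq
  rw [Nat.card_eq_fintype_card, Nat.card_eq_fintype_card, Fintype.card_fun, Fintype.card_bool,
    Fintype.card_subtype, Nat.cast_pow, Nat.cast_ofNat, sum_boole]
  refine div_le_div_of_nonneg_right (Nat.cast_le.2 ?_) (by positivity)
  refine card_le_card_of_injOn e ?_ e.injective.injOn
  intro x hx
  simp only [coe_filter, mem_univ, true_and, Set.mem_ofPred_eq] at hx ⊢
  refine exists_odd_null ?_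
  set A : Matrix (Fin n) (Fin n) ℤ := Matrix.of fun i j => (1 - 2 * cMat (e x) i j : ℤ) with hA
  have hAx : (Int.castRingHom ℝ).mapMatrix A = symSign x := by
    ext i j
    simp only [RingHom.mapMatrix_apply, Matrix.map_apply, hA, Matrix.of_apply, cMat, symSign, e,
      Equiv.coe_fn_mk]
    rcases Bool.eq_false_or_eq_true (x s(i, j)) with h | h <;> simp [h] <;> norm_num
  have h := (Int.castRingHom ℝ).map_det A
  rw [hAx, hx] at h
  simpa using h

/-- The parameters at size `n`. -/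
def par0 (n E₀ : ℕ) (r : ℝ) : Par :=
  { n := n, m := pm n, k := pk n, E₀ := E₀, L := pl n, u := pu n, T := n / 100, δ := pd, r := r }

theorem ok_par0 (n E₀ : ℕ) (r : ℝ) (hn : 1000000 ≤ n) : Ok (par0 n E₀ r) := by
  obtain ⟨⟨hk1, hk2⟩, hm, -, -, ⟨hu1, hu2⟩, -⟩ := param_bounds n
  have hnR : (1000000 : ℝ) ≤ n := by exact_mod_cast hn
  have hT : (n : ℝ) / 100 ≤ ((n / 100 : ℕ) : ℝ) + 1 := by
    have := (Nat.cast_le (α := ℝ)).2 (show n ≤ 100 * (n / 100) + 100 by omega)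
    push_cast at this; linarith
  have hprod : (n : ℝ) / 100 * (418 * n / 1000 - 1) ≤ (((n / 100 : ℕ) : ℝ) + 1) * pk n :=
    mul_le_mul hT hk2 (by linarith) (by positivity)
  have hnn : (1000000 : ℝ) * n ≤ (n : ℝ) * n := mul_le_mul_of_nonneg_right hnR (by linarith)
  refine ⟨?_, by simp only [par0]; omega, ?_, ?_, ?_, ?_, ?_⟩ <;> simp only [par0]
  · unfold pm pk; omega
  · unfold pu; omega
  · have : (400 : ℝ) * n ≤ pk n * (((n / 100 : ℕ) : ℝ) + 1) := by linarith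
    exact_mod_cast this
  · have : 2 * (pu n : ℝ) * n ≤ (((n / 100 : ℕ) : ℝ) + 1) * pk n := by
      have := mul_le_mul_of_nonneg_right hu1 (show (0 : ℝ) ≤ n by linarith)
      linarith
    exact_mod_cast this
  · rw [hm]
    have : 0 ≤ (418 * (n : ℝ) / 1000 - pk n) * (582 * n / 1000 - pk n) :=
      mul_nonneg (by linarith) (by linarith)
    nlinarith
  · unfold pk pu; omega

open Classical in
theorem bad_level (n E₀ : ℕ) (r : ℝ) (hn : 1000000 ≤ n) (hE : 1 ≤ E₀) (hb : Base (par0 n E₀ r))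
    (hkey : ∀ i, 1 ≤ i → i ≤ pj n → ∀ v : Fin (pk n) → ℤ, Nice i E₀ (pl n) (pu n) pd r v →
      kSum (2 ^ i) v (pm n) ≤ (2 : ℝ) ^ ((1 / 20000 : ℝ) * n) * (2 : ℝ) ^ i / ((2 : ℝ) ^ i) ^ pm n)
    (hcount : ∀ l, l ≤ pj n → ∀ (N : ℕ) [NeZero N], N = 2 ^ l →
      ((univ.filter fun w : Fin (pk n) → ZMod N => ¬ GoodAt l E₀ (pl n) pd (rep w)).card : ℝ)
        ≤ (N : ℝ) ^ pk n * (2 : ℝ) ^ (-(1000 * (n : ℝ))))
    (σ : Bij (pm n) (pk n) n) (l : ℕ) (hl : l + 1 ≤ pj n) :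
    fq (BadAt (par0 n E₀ r) σ l) ≤ (2 : ℝ) ^ (-(4 * (n : ℝ))) := by
  classical
  obtain ⟨⟨hk1, hk2⟩, hm, ⟨hj1, -⟩, -, -, -⟩ := param_bounds n
  have hnR : (1000000 : ℝ) ≤ n := by exact_mod_cast hn
  have hlR : (l : ℝ) + 1 ≤ 323 * n / 2000 := le_trans (by exact_mod_cast hl) hj1
  set Kk : ℝ := (2 : ℝ) ^ ((1 / 20000 : ℝ) * n) with hKk
  have h := fq_badAt_le (ok_par0 n E₀ r hn) hb σ l (8 * n) (Kk * (2 : ℝ) ^ l / ((2 : ℝ) ^ l) ^ pm n)
    (by positivity) (fun h1 v hv => hkey l h1 (by omega) v hv) hE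
  refine h.trans ?_
  simp only [par0]
  have hcnt := hcount (l + 1) hl (2 * 2 ^ l) (by rw [pow_succ, mul_comm])
  refine le_trans (add_le_add (mul_le_mul_of_nonneg_right (mul_le_mul_of_nonneg_left hcnt (by positivity))
    (by positivity)) le_rfl) ?_
  push_cast
  have h2 : (0 : ℝ) < 2 := by norm_num
  have e : (2 * (2 : ℝ) ^ l) ^ pk n * (2 ^ pm n * ((2 : ℝ) ^ l) ^ pm n / ((2 : ℝ) ^ l) ^ pk n *
      (Kk * (2 : ℝ) ^ l / ((2 : ℝ) ^ l) ^ pm n)) = (2 : ℝ) ^ ((pk n : ℝ) + pm n + (1 / 20000 * n + l)) := by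
    rw [mul_pow, Real.rpow_add h2, Real.rpow_add h2, Real.rpow_add h2, Real.rpow_natCast, Real.rpow_natCast,
      Real.rpow_natCast, hKk]
    field_simp
  set Y : ℝ := (2 : ℝ) ^ ((pk n : ℝ) + pm n + (1 / 20000 * n + l)) with hY
  calc _ = ((2 : ℝ) ^ (99 * (8 * (n : ℝ))) * (2 : ℝ) ^ (-(1000 * (n : ℝ))) + (2 : ℝ) ^ (-(8 * (n : ℝ))) * 2) * Y := by
        rw [← e]; ring
    _ ≤ ((2 : ℝ) ^ (-(8 * (n : ℝ))) + (2 : ℝ) ^ (-(8 * (n : ℝ))) * 2) * Y := by
        refine mul_le_mul_of_nonneg_right (add_le_add ?_ le_rfl) (by positivity)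
        rw [← Real.rpow_add h2]
        exact Real.rpow_le_rpow_of_exponent_le (by norm_num) (by linarith)
    _ ≤ (2 : ℝ) ^ ((2 : ℝ) + -(8 * (n : ℝ))) * Y := by
        refine mul_le_mul_of_nonneg_right ?_ (by positivity)
        rw [Real.rpow_add h2, Real.rpow_two]
        linarith [Real.rpow_pos_of_pos h2 (-(8 * (n : ℝ)))]
    _ ≤ _ := by
        rw [hY, ← Real.rpow_add h2]
        exact Real.rpow_le_rpow_of_exponent_le (by norm_num) (by linarith)

theorem dense_bound :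
    ∃ C : ℝ, 0 ≤ C ∧ ∀ᶠ n : ℕ in atTop, fq (ι := Fin n)
      (fun b => ∃ z, IsNull b z ∧ n / 100 < (oddSet z).card) ≤ C * (2 : ℝ) ^ (-(3225 / 10000 * (n : ℝ))) := by
  obtain ⟨E₀, hE₀, hcount⟩ := exists_bad_count
  obtain ⟨r, hr0, hr1, hlam⟩ := exists_lam E₀
  refine ⟨280000 + 1, by norm_num, ?_⟩
  filter_upwards [hcount, kSum_key E₀ r hr0 hr1, eventually_ge_atTop 1000000] with n hcount hkey hn
  obtain ⟨⟨hk1, hk2⟩, hm, ⟨hj1, hj2⟩, -, -, -⟩ := param_bounds n
  have hnR : (1000000 : ℝ) ≤ n := by exact_mod_cast hn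
  have hb : Base (par0 n E₀ r) := ⟨pd_pos.le, pd_le, hr0, hr1.le, hlam⟩
  haveI : Nonempty (Bij (par0 n E₀ r).m (par0 n E₀ r).k (par0 n E₀ r).n) :=
    ⟨finSumFinEquiv.trans (finCongr (ok_par0 n E₀ r hn).hmk)⟩
  haveI : Nonempty (Bij (pm n) (pk n) n) :=
    ⟨finSumFinEquiv.trans (finCongr (ok_par0 n E₀ r hn).hmk)⟩
  obtain ⟨j', hj⟩ : ∃ j', pj n = j' + 1 := ⟨pj n - 1, by
    have : pj n = 323 * n / 2000 := rfl
    omega⟩
  set Kk : ℝ := (2 : ℝ) ^ ((1 / 20000 : ℝ) * n) with hKk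
  set P : ℝ := (2 : ℝ) ^ (j' + 1) with hP
  have hP0 : 0 < P := by positivity
  have h := fq_dense_le (ok_par0 n E₀ r hn) hb j' (Kk * P / P ^ pm n) (by positivity)
    (fun v hv => (hkey (j' + 1) (by omega) (by omega) v hv).1) (fun v i₀ hv => by
      refine (star_bound hv (ps n) i₀).trans (div_le_div_of_nonneg_right ?_ hP0.le)
      have := (hkey (j' + 1) (by omega) (by omega) v hv).2
      simp only [par0] at this ⊢
      linarith)
  refine h.trans ?_
  have h2 : (0 : ℝ) < 2 := by norm_num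
  simp only [par0]
  rw [add_mul (280000 : ℝ) 1, one_mul, add_comm (280000 * _)]
  refine add_le_add ?_ ?_
  · refine le_trans (sum_le_card_nsmul _ _ ((n : ℝ) * (2 : ℝ) ^ (-(4 * (n : ℝ)))) fun τ _ => ?_) ?_
    · refine le_trans (sum_le_card_nsmul _ _ _ fun l hl => bad_level n E₀ r hn hE₀ hb
        (fun i h1 h2 v hv => (hkey i h1 h2 v hv).1) hcount τ l (by have := mem_range.1 hl; omega)) ?_
      rw [card_range, nsmul_eq_mul]
      refine mul_le_mul_of_nonneg_right ?_ (by positivity)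
      have : j' + 1 ≤ n := by
        have : pj n = 323 * n / 2000 := rfl
        omega
      exact_mod_cast this
    · rw [nsmul_eq_mul]
      have hc : ((canon (pm n) (pk n) n).card : ℝ) ≤ (2 : ℝ) ^ (n : ℝ) := by
        rw [Real.rpow_natCast]; exact_mod_cast card_canon_le
      have hn2 : (n : ℝ) ≤ (2 : ℝ) ^ (n : ℝ) := by
        rw [Real.rpow_natCast]; exact_mod_cast (Nat.lt_two_pow_self (n := n)).le
      refine le_trans (mul_le_mul hc (mul_le_mul_of_nonneg_right hn2 (by positivity)) (by positivity) (by positivity)) ?_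
      rw [← Real.rpow_add h2, ← Real.rpow_add h2]
      exact Real.rpow_le_rpow_of_exponent_le (by norm_num) (by linarith)
  · rw [← hP, show 70000 * P ^ pm n * (Kk * P / P ^ pm n) / P ^ 3 = 70000 * (Kk / P ^ 2) by field_simp,
      show (280000 : ℝ) * (2 : ℝ) ^ (-(3225 / 10000 * (n : ℝ)))
        = 70000 * ((2 : ℝ) ^ (2 : ℝ) * (2 : ℝ) ^ (-(3225 / 10000 * (n : ℝ)))) by rw [Real.rpow_two]; ring]
    refine mul_le_mul_of_nonneg_left ?_ (by norm_num)
    rw [hP, ← hj, ← pow_mul, ← Real.rpow_natCast, hKk, ← Real.rpow_sub h2, ← Real.rpow_add h2]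
    refine Real.rpow_le_rpow_of_exponent_le (by norm_num) ?_
    push_cast
    linarith

theorem two_rpow_le_four_fifths : (2 : ℝ) ^ (-(161 / 500) : ℝ) ≤ 4 / 5 := by
  refine le_of_pow_le_pow_left₀ (n := 500) (by norm_num) (by norm_num) ?_
  rw [← Real.rpow_natCast ((2 : ℝ) ^ (-(161 / 500) : ℝ)) 500, ← Real.rpow_mul (by norm_num),
    show (-(161 / 500) : ℝ) * ((500 : ℕ) : ℝ) = -((161 : ℕ) : ℝ) by norm_num,
    Real.rpow_neg (by norm_num), Real.rpow_natCast, div_pow, inv_eq_one_div,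
    div_le_div_iff₀ (by positivity) (by positivity), one_mul]
  exact_mod_cast (by decide +kernel : (5 : ℕ) ^ 500 ≤ 4 ^ 500 * 2 ^ 161)

/-- The bound. -/
theorem singular_le : ∀ᶠ n : ℕ in atTop, prob n (fun M => M.det = 0) ≤ (4 / 5 : ℝ) ^ n := by
  classical
  obtain ⟨C, hC0, hd⟩ := dense_bound
  filter_upwards [hd, eventually_ge_atTop 1000000,
    eventually_const_le (C + 4) (5 / 10000) (by norm_num)] with n hd hn hC
  have hnR : (1000000 : ℝ) ≤ n := by exact_mod_cast hn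
  set T := n / 100 with hT
  set Sp := fun b : Sym2 (Fin n) → Bool => ∃ z, IsNull b z ∧ (∃ i, (z i : ZMod 2) ≠ 0) ∧
    (univ.filter fun i => (z i : ZMod 2) ≠ 0).card ≤ T
  have hcover : ∀ b, (∃ z, IsNull b z ∧ ∃ i, (z i : ZMod 2) ≠ 0) →
      Sp b ∨ (∃ z, IsNull b z ∧ T < (oddSet z).card) := by
    rintro b ⟨z, hz, hi⟩
    by_cases h : (univ.filter fun i => (z i : ZMod 2) ≠ 0).card ≤ T
    · exact Or.inl ⟨z, hz, hi, h⟩
    · exact Or.inr ⟨z, hz, not_le.1 h⟩
  have hq := (prob_le_fq n).trans ((fq_mono hcover).trans (fq_or _ _))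
  have hsp : fq Sp ≤ 4 * (2 : ℝ) ^ (-(3225 / 10000 * (n : ℝ))) := by
    refine (fq_sparse_le n (by omega) T).trans ?_
    calc (((univ : Finset (Finset (Fin n))).filter fun W => W.card ≤ T).card : ℝ) * 2 / 2 ^ (n - 1)
        ≤ (2 : ℝ) ^ (6 * (T : ℝ) + (1 / 32) * n) * 2 / 2 ^ (n - 1) := by
          gcongr
          refine (card_small_le (α := Fin n) T).trans ?_
          rw [Fintype.card_fin]
          exact sixtyfour_le T n
      _ = 4 * (2 : ℝ) ^ (6 * (T : ℝ) + (1 / 32) * n - n) := by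
          rw [Real.rpow_sub (by norm_num), Real.rpow_natCast]
          have : (2 : ℝ) ^ n = 2 ^ (n - 1) * 2 := by rw [← pow_succ]; congr 1; omega
          rw [this]; field_simp; ring
      _ ≤ _ := by
          refine mul_le_mul_of_nonneg_left (Real.rpow_le_rpow_of_exponent_le (by norm_num) ?_) (by norm_num)
          have := (Nat.cast_le (α := ℝ)).2 (show 100 * T ≤ n by omega)
          push_cast at this
          linarith
  have h1 : prob n (fun M => M.det = 0) ≤ (C + 4) * (2 : ℝ) ^ (-(3225 / 10000 * (n : ℝ))) := by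
    linarith
  refine h1.trans ((mul_le_mul_of_nonneg_right hC (by positivity)).trans ?_)
  rw [← Real.rpow_add (by norm_num)]
  calc (2 : ℝ) ^ (5 / 10000 * (n : ℝ) + -(3225 / 10000 * (n : ℝ)))
      = ((2 : ℝ) ^ (-(161 / 500) : ℝ)) ^ n := by
        rw [← Real.rpow_natCast ((2 : ℝ) ^ (-(161 / 500) : ℝ)) n, ← Real.rpow_mul (by norm_num)]
        congr 1; ring
    _ ≤ _ := pow_le_pow_left₀ (by positivity) two_rpow_le_four_fifths n

end

end Vale.Agent.P160.Rate2
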