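import Vale.Agent.P160.Rate2.Atom

/-!
Goodness of a vector modulo powers of two: small signed character sums over every large support,
its high moments, and the resulting atom bounds.
-/

namespace Vale.Agent.P160.Rate2

open Finset Vale.Agent.P160.Rate

set_option linter.unusedSectionVars false

noncomputable section

variable {k : ℕ}

/-- The signed contribution of the characters of large order to a binary atom. -/
def exc (l E₀ : ℕ) (v : Fin k → ZMod (2 ^ l)) (T : Finset (Fin k)) (x : ZMod (2 ^ l)) : ℂ :=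
  ∑ χ ∈ highSet (2 ^ l) E₀, χ (-x) * ∏ c ∈ T, ((1 + χ (v c)) / 2)

/-- Goodness at one level. -/
def GoodAt (l E₀ L : ℕ) (δ : ℝ) (v : Fin k → ℤ) : Prop :=
  ∀ T : Finset (Fin k), l + L ≤ T.card → ∀ x, ‖exc l E₀ (fun c => (v c : ZMod (2 ^ l))) T x‖ ≤ δ

/-- Goodness up to a level. -/
def Good (i E₀ L : ℕ) (δ : ℝ) (v : Fin k → ℤ) : Prop := ∀ l ≤ i, GoodAt l E₀ L δ v

theorem goodAt_low (l E₀ L : ℕ) (δ : ℝ) (hδ : 0 ≤ δ) (hl : l ≤ E₀) (v : Fin k → ℤ) :
    GoodAt l E₀ L δ v := by
  intro T _ x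
  have : highSet (2 ^ l) E₀ = ∅ := by
    refine filter_eq_empty_iff.2 fun χ _ h => h ?_
    rw [(CharP.cast_eq_zero_iff (ZMod (2 ^ l)) (2 ^ l) (2 ^ E₀)).2 (pow_dvd_pow 2 hl), AddChar.map_zero_eq_one]
  simp [exc, this, hδ]

theorem cast_level {l i : ℕ} (hl : l ≤ i) {α : Type*} {v w : α → ℤ} (h : ∀ c, (v c : ZMod (2 ^ i)) = (w c : ZMod (2 ^ i)))
    (c : α) : (v c : ZMod (2 ^ l)) = (w c : ZMod (2 ^ l)) := by
  have := congrArg (ZMod.castHom (pow_dvd_pow 2 hl) (ZMod (2 ^ l))) (h c)
  simpa using this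

theorem goodAt_congr {l E₀ L : ℕ} {δ : ℝ} {v w : Fin k → ℤ}
    (h : ∀ c, (v c : ZMod (2 ^ l)) = (w c : ZMod (2 ^ l))) : GoodAt l E₀ L δ v ↔ GoodAt l E₀ L δ w := by
  unfold GoodAt
  rw [funext h]

theorem good_congr {i E₀ L : ℕ} {δ : ℝ} {v w : Fin k → ℤ}
    (h : ∀ c, (v c : ZMod (2 ^ i)) = (w c : ZMod (2 ^ i))) : Good i E₀ L δ v ↔ Good i E₀ L δ w :=
  forall₂_congr fun _ hl => goodAt_congr (cast_level hl h)

theorem goodAt_perm {l E₀ L : ℕ} {δ : ℝ} {v : Fin k → ℤ} (e : Fin k ≃ Fin k)
    (h : GoodAt l E₀ L δ v) : GoodAt l E₀ L δ (fun c => v (e c)) := by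
  intro T hT x
  have := h (T.map e.toEmbedding) (by simpa using hT) x
  simpa [exc, prod_map] using this

/-- The number of odd coordinates in a set. -/
def oddIn (v : Fin k → ℤ) (T : Finset (Fin k)) : ℕ := (T.filter fun j => (v j : ZMod 2) ≠ 0).card

theorem atom_le_good (l E₀ : ℕ) (v : Fin k → ℤ) (T : Finset (Fin k)) (r : ℝ) (hr : 0 ≤ r)
    (hr1 : r ≤ 1) (hlam : ∀ u : ℂ, u ^ (2 ^ E₀) = 1 → u ≠ 1 → fb u ≤ r) (δ : ℝ)
    (x : ZMod (2 ^ l)) (hx : ‖exc l E₀ (fun c => (v c : ZMod (2 ^ l))) T x‖ ≤ δ) :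
    (2 : ℝ) ^ l * atomB l v T x ≤ 1 + 2 ^ E₀ * r ^ oddIn v T + δ := by
  classical
  have hid := card_mul_bp (fun c => if c ∈ T then (v c : ZMod (2 ^ l)) else 0) x
  rw [ZMod.card] at hid
  set f : AddChar (ZMod (2 ^ l)) ℂ → ℂ := fun χ => χ (-x) * ∏ c ∈ T, ((1 + χ (v c : ZMod (2 ^ l))) / 2) with hf
  have hterm : ∀ χ : AddChar (ZMod (2 ^ l)) ℂ,
      χ (-x) * ∏ c, ((1 + χ (if c ∈ T then (v c : ZMod (2 ^ l)) else 0)) / 2) = f χ := by
    intro χ
    rw [hf, ← prod_subset (subset_univ T)]
    · congr 1; exact prod_congr rfl fun c hc => by rw [if_pos hc]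
    · intro c _ hc; simp [hc]
  simp only [hterm] at hid
  rw [← sum_sdiff (subset_univ (highSet (2 ^ l) E₀))] at hid
  have hnn : 0 ≤ atomB l v T x := bp_nonneg _ _
  calc (2 : ℝ) ^ l * atomB l v T x = ‖((2 ^ l : ℕ) : ℂ) * (atomB l v T x : ℂ)‖ := by
        rw [norm_mul, Complex.norm_natCast, Complex.norm_real, Real.norm_of_nonneg hnn]; push_cast; rfl
    _ ≤ _ := by
        rw [atomB, hid]
        refine (norm_add_le _ _).trans (add_le_add ?_ hx)
        refine (norm_sum_le _ _).trans (le_trans (sum_le_sum fun χ _ => ?_) (low_sum_le l E₀ v T r hr hr1 hlam))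
        rw [hf, norm_mul, norm_char, one_mul, norm_prod]
        exact prod_le_prod (fun c _ => norm_nonneg _) fun c _ => norm_half_le_fb χ _

theorem atomB_level {l i : ℕ} (hl : l ≤ i) (v : Fin k → ℤ) (T : Finset (Fin k)) (x : ZMod (2 ^ i)) :
    atomB i v T x ≤ atomB l v T (ZMod.castHom (pow_dvd_pow 2 hl) (ZMod (2 ^ l)) x) := by
  classical
  unfold atomB bp
  gcongr with b
  by_cases h : (∑ c, if b c then (if c ∈ T then (v c : ZMod (2 ^ i)) else 0) else 0) = x
  · rw [if_pos h, if_pos]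
    rw [← h, map_sum]
    refine sum_congr rfl fun c _ => ?_
    split_ifs <;> simp [*]
  · rw [if_neg h]; split <;> norm_num

/-- The bound on the atom over a support. -/
def Mb (i E₀ L σ : ℕ) (δ r : ℝ) (v : Fin k → ℤ) (T : Finset (Fin k)) : ℝ :=
  (1 + 2 ^ E₀ * r ^ σ + δ + if oddIn v T < σ then (2 : ℝ) + 2 ^ E₀ else 0) / 2 ^ i
    + (2 + 2 ^ E₀) * 2 ^ L * (1 / 2) ^ T.card

theorem atom_le_Mb (i E₀ L σ : ℕ) (δ r : ℝ) (hδ0 : 0 ≤ δ) (hδ : δ ≤ 1) (hr : 0 ≤ r) (hr1 : r ≤ 1)
    (hlam : ∀ u : ℂ, u ^ (2 ^ E₀) = 1 → u ≠ 1 → fb u ≤ r) (v : Fin k → ℤ) (hg : Good i E₀ L δ v)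
    (T : Finset (Fin k)) (x : ZMod (2 ^ i)) : atomB i v T x ≤ Mb i E₀ L σ δ r v T := by
  classical
  set C₀ : ℝ := 2 + 2 ^ E₀ with hC₀
  have hC1 : 1 ≤ C₀ := by have : (0 : ℝ) ≤ 2 ^ E₀ := by positivity
                          linarith
  have hC0 : 0 ≤ C₀ := zero_le_one.trans hC1
  have hA : 0 ≤ (1 + 2 ^ E₀ * r ^ σ + δ + if oddIn v T < σ then C₀ else 0) / (2 : ℝ) ^ i := by
    have : (0 : ℝ) ≤ 2 ^ E₀ * r ^ σ := by positivity
    refine div_nonneg ?_ (by positivity)
    split <;> linarith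
  have hB : 0 ≤ C₀ * 2 ^ L * (1 / 2 : ℝ) ^ T.card := mul_nonneg (mul_nonneg hC0 (by positivity)) (by positivity)
  have hcap : ∀ l, l ≤ i → l + L ≤ T.card → ∀ y, (2 : ℝ) ^ l * atomB l v T y
      ≤ 1 + 2 ^ E₀ * r ^ oddIn v T + δ := fun l hl hT y =>
    atom_le_good l E₀ v T r hr hr1 hlam δ y (hg l hl T hT y)
  have hrp : ∀ e : ℕ, (2 : ℝ) ^ E₀ * r ^ e ≤ 2 ^ E₀ := fun e =>
    mul_le_of_le_one_right (by positivity) (pow_le_one₀ hr hr1)
  unfold Mb
  by_cases hT : i + L ≤ T.card
  · refine le_trans ?_ (le_add_of_nonneg_right hB)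
    rw [le_div_iff₀ (by positivity), mul_comm]
    refine (hcap i le_rfl hT x).trans ?_
    by_cases ho : oddIn v T < σ
    · rw [if_pos ho]
      have : (0 : ℝ) ≤ 2 ^ E₀ * r ^ σ := by positivity
      linarith [hrp (oddIn v T)]
    · rw [if_neg ho]
      have := mul_le_mul_of_nonneg_left (pow_le_pow_of_le_one hr hr1 (not_lt.1 ho))
        (show (0 : ℝ) ≤ 2 ^ E₀ by positivity)
      linarith
  · refine le_trans ?_ (le_add_of_nonneg_left hA)
    by_cases hL : L ≤ T.card
    · have hl : T.card - L ≤ i := by omega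
      refine (atomB_level hl v T x).trans ?_
      set y := ZMod.castHom (pow_dvd_pow 2 hl) (ZMod (2 ^ (T.card - L))) x
      have h1 : (2 : ℝ) ^ (T.card - L) * atomB (T.card - L) v T y ≤ C₀ :=
        (hcap _ hl (by omega) y).trans (by linarith [hrp (oddIn v T)])
      rw [mul_comm, ← le_div_iff₀ (by positivity)] at h1
      refine h1.trans (le_of_eq ?_)
      obtain ⟨e, he⟩ : ∃ e, T.card = L + e := ⟨T.card - L, by omega⟩
      rw [he, Nat.add_sub_cancel_left, one_div_pow, pow_add]
      field_simp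
      exact hC₀
    · refine (bp_le_one _ _).trans ?_
      rw [mul_assoc, one_div_pow, mul_one_div]
      refine one_le_mul_of_one_le_of_one_le hC1 ?_
      rw [one_le_div (by positivity)]
      exact pow_le_pow_right₀ (by norm_num) (by omega)

/-- Summing the bound over the subsets of a set. -/
theorem sum_Mb_le (i E₀ L σ : ℕ) (δ r : ℝ) (v : Fin k → ℤ) (N : Finset (Fin k)) (o : ℕ)
    (ho : o ≤ oddIn v N) :
    ∑ T ∈ N.powerset, Mb i E₀ L σ δ r v T ≤ 2 ^ N.card *
      ((1 + 2 ^ E₀ * r ^ σ + δ + (2 + 2 ^ E₀) * min 1 (2 ^ σ * (3 / 4) ^ o)) / 2 ^ i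
        + (2 + 2 ^ E₀) * 2 ^ L * (3 / 4) ^ N.card) := by
  classical
  set C₀ : ℝ := 2 + 2 ^ E₀ with hC₀
  have hC0 : 0 ≤ C₀ := by positivity
  have hhalf : ∑ T ∈ N.powerset, (1 / 2 : ℝ) ^ T.card = 2 ^ N.card * (3 / 4) ^ N.card := by
    have h := Finset.sum_pow_mul_eq_add_pow (1 / 2 : ℝ) 1 N
    simp only [one_pow, mul_one] at h
    rw [h, ← mul_pow]; norm_num
  have hind : (((N.powerset).filter fun T => oddIn v T < σ).card : ℝ)
      ≤ 2 ^ N.card * min 1 (2 ^ σ * (3 / 4) ^ o) := by
    rw [mul_min_of_nonneg _ _ (by positivity), mul_one]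
    refine le_min ?_ ?_
    · exact_mod_cast (card_filter_le _ _).trans (card_powerset N).le
    set w : Fin k → ℝ := fun c => if (v c : ZMod 2) ≠ 0 then 1 / 2 else 1 with hw
    have hwT : ∀ T : Finset (Fin k), ∏ c ∈ T, w c = (1 / 2 : ℝ) ^ oddIn v T := fun T => by
      simp only [hw, prod_ite, prod_const, one_pow, mul_one, oddIn]
    calc (((N.powerset).filter fun T => oddIn v T < σ).card : ℝ)
        ≤ ∑ T ∈ N.powerset, (2 : ℝ) ^ σ * ∏ c ∈ T, w c := by
          rw [card_eq_sum_ones, Nat.cast_sum]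
          refine le_trans (sum_le_sum fun T hT => ?_) (sum_le_sum_of_subset_of_nonneg (filter_subset _ _)
            fun T _ _ => by rw [hwT]; positivity)
          rw [Nat.cast_one, hwT, one_div_pow, mul_one_div, one_le_div (by positivity)]
          exact pow_le_pow_right₀ (by norm_num) (mem_filter.1 hT).2.le
      _ = 2 ^ σ * (2 ^ N.card * (3 / 4) ^ oddIn v N) := by
          rw [← mul_sum, ← prod_one_add, ← prod_const]
          congr 1
          rw [oddIn, ← prod_const, prod_filter, ← prod_mul_distrib]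
          refine prod_congr rfl fun c _ => ?_
          simp only [hw]
          split_ifs <;> norm_num
      _ ≤ 2 ^ σ * (2 ^ N.card * (3 / 4) ^ o) := by
          gcongr ?_ * (?_ * ?_)
          exact pow_le_pow_of_le_one (by norm_num) (by norm_num) ho
      _ = _ := by ring
  unfold Mb
  rw [sum_add_distrib, ← sum_div, sum_add_distrib, sum_const, card_powerset, nsmul_eq_mul, ← sum_filter,
    sum_const, nsmul_eq_mul, ← mul_sum, hhalf, mul_add ((2 : ℝ) ^ N.card)]
  refine add_le_add ?_ (le_of_eq ?_)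
  swap
  · simp only [hC₀]; ring
  rw [← mul_div_assoc]
  refine div_le_div_of_nonneg_right ?_ (by positivity)
  have := mul_le_mul_of_nonneg_right hind hC0
  push_cast
  linarith

theorem exc_real (l E₀ : ℕ) (v : Fin k → ZMod (2 ^ l)) (T : Finset (Fin k)) (x : ZMod (2 ^ l)) :
    (starRingEnd ℂ) (exc l E₀ v T x) = exc l E₀ v T x := by
  have hc : ∀ (χ : AddChar (ZMod (2 ^ l)) ℂ) (y : ZMod (2 ^ l)), (starRingEnd ℂ) (χ y) = (-χ) y := fun χ y => by
    rw [AddChar.neg_apply, conj_char]
  unfold exc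
  simp only [map_sum, map_mul, map_prod, map_div₀, map_add, map_one, map_ofNat, hc]
  refine sum_nbij' (fun χ => -χ) (fun χ => -χ) ?_ ?_ (fun χ _ => neg_neg χ) (fun χ _ => neg_neg χ) fun χ _ => rfl <;>
  · intro χ hχ
    simp only [mem_coe, highSet, mem_filter, mem_univ, true_and] at hχ ⊢
    intro h
    apply hχ
    rw [← hc] at h
    simpa using congrArg (starRingEnd ℂ) h

/-- The average over a vector of the binary character product. -/
theorem avg_prod_half {G : Type*} [AddCommGroup G] [Fintype G] [DecidableEq G] {s : ℕ}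
    (g : Fin s → AddChar G ℂ) :
    ∑ y : G, ∏ l, ((1 + g l y) / 2) = (Fintype.card G : ℂ) * (bp g 0 : ℂ) := by
  have h := card_mul_bp g 0
  rw [AddChar.card_eq] at h
  simp only [neg_zero, AddChar.map_zero_eq_one, one_mul] at h
  rw [h]
  refine Fintype.sum_bijective AddChar.doubleDualEmb AddChar.doubleDualEmb_bijective _ _ ?_
  intro x; simp

/-- A dissociated family of size `d` gives a binary atom at most `2 ^ -d`. -/
theorem bp_diss_le {G : Type*} [AddCommGroup G] [Fintype G] [DecidableEq G] {s : ℕ} (g : Fin s → G)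
    (D : Finset (Fin s)) (hD : Diss g D) : bp g 0 ≤ (1 / 2) ^ D.card := by
  classical
  set Z := univ.filter fun b : Fin s → Bool => (∑ l, if b l then g l else 0) = 0 with hZ
  have hcard : Z.card ≤ 2 ^ (s - D.card) := by
    refine le_trans (card_le_card_of_injOn (fun b => fun l : {l // l ∉ D} => b l.1)
      (t := (univ : Finset ({l // l ∉ D} → Bool))) (fun _ _ => mem_coe.2 (mem_univ _)) ?_) ?_
    · intro b hb b' hb' h
      simp only [hZ, coe_filter, mem_univ, true_and, Set.mem_ofPred_eq] at hb hb'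
      set x : Fin s → SignType := fun l => if b l = b' l then 0 else if b l then 1 else -1 with hx
      have hout : ∀ l ∉ D, x l = 0 := fun l hl => by
        simp [hx, show b l = b' l from congrFun h ⟨l, hl⟩]
      have htot : tot g x = 0 := by
        rw [show (0 : G) = (∑ l, if b l then g l else 0) - (∑ l, if b' l then g l else 0) by rw [hb, hb', sub_zero],
          ← sum_sub_distrib]
        refine sum_congr rfl fun l _ => ?_
        simp only [hx]
        cases b l <;> cases b' l <;> simp [ival]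
      have h0 := hD x hout htot
      funext l
      have := congrFun h0 l
      simp only [hx] at this
      revert this
      cases b l <;> cases b' l <;> simp
    · rw [card_univ, Fintype.card_fun, Fintype.card_bool, Fintype.card_subtype_compl, Fintype.card_coe,
        Fintype.card_fin]
  rw [bp, sum_boole, Fintype.card_fin, div_le_iff₀ (by positivity), one_div_pow, div_mul_eq_mul_div,
    le_div_iff₀ (by positivity), one_mul]
  have hDs : D.card ≤ s := by simpa using card_le_univ D
  calc ((Z.card : ℝ)) * 2 ^ D.card ≤ ((2 ^ (s - D.card) : ℕ) : ℝ) * 2 ^ D.card :=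
        mul_le_mul_of_nonneg_right (Nat.cast_le.2 hcard) (by positivity)
    _ = 2 ^ s := by rw [Nat.cast_pow, Nat.cast_ofNat, ← pow_add, Nat.sub_add_cancel hDs]

/-- The high moments of the signed contribution. -/
theorem exc_moment (l₀ E E₀ s : ℕ) (hs1 : 1 ≤ s) (hs : s < 2 ^ E₀) (r : ℝ) (hr : 0 ≤ r)
    (hlam : ∀ u : ℂ, u ^ (2 ^ E) = 1 → u ≠ 1 → fb u ≤ r) (hev : Even s)
    (S : Finset (Fin k)) (x₀ : ZMod (2 ^ l₀)) :
    ∑ v : Fin k → ZMod (2 ^ l₀), ‖exc l₀ E₀ v S x₀‖ ^ s ≤
      (((2 ^ l₀ : ℕ) : ℝ)) ^ k * 3 ^ (s * s) * ∑ D ∈ (univ : Finset (Finset (Fin s))).filter (·.Nonempty),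
        (((2 ^ l₀ : ℕ) : ℝ)) ^ D.card * (min ((1 / 2) ^ D.card) (1 / 2 ^ E + r ^ s)) ^ S.card := by
  classical
  set H := highSet (2 ^ l₀) E₀ with hH
  set N : ℝ := ((2 ^ l₀ : ℕ) : ℝ) with hN
  set α : ℝ := 1 / 2 ^ E + r ^ s with hα
  have hα0 : 0 ≤ α := by positivity
  have hreal : ∀ v, ((‖exc l₀ E₀ v S x₀‖ ^ s : ℝ) : ℂ) = exc l₀ E₀ v S x₀ ^ s := by
    intro v
    obtain ⟨a, ha⟩ := Complex.conj_eq_iff_real.1 (exc_real l₀ E₀ v S x₀)
    rw [ha, Complex.norm_real, Real.norm_eq_abs, hev.pow_abs]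
    push_cast; rfl
  have hexp : ∑ v, exc l₀ E₀ v S x₀ ^ s = ∑ g ∈ Fintype.piFinset (fun _ : Fin s => H),
      (∏ l, g l (-x₀)) * ((N : ℂ) ^ k * (bp g 0 : ℂ) ^ S.card) := by
    unfold exc
    simp_rw [Finset.sum_pow']
    rw [sum_comm]
    refine sum_congr rfl fun g _ => ?_
    simp_rw [prod_mul_distrib, ← mul_sum]
    congr 1
    have h1 : ∀ v : Fin k → ZMod (2 ^ l₀), ∏ l : Fin s, ∏ c ∈ S, ((1 + g l (v c)) / 2)
        = ∏ j, (if j ∈ S then ∏ l, ((1 + g l (v j)) / 2) else 1) := by
      intro v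
      rw [prod_comm, prod_ite_mem, univ_inter]
    simp_rw [h1]
    rw [← Fintype.prod_sum (fun (j : Fin k) (y : ZMod (2 ^ l₀)) => if j ∈ S then ∏ l, ((1 + g l y) / 2) else 1)]
    have h2 : ∀ j, ∑ y : ZMod (2 ^ l₀), (if j ∈ S then ∏ l, ((1 + g l y) / 2) else 1)
        = (N : ℂ) * (if j ∈ S then (bp g 0 : ℂ) else 1) := by
      intro j
      by_cases hj : j ∈ S
      · simp only [hj, if_true, hN]
        rw [avg_prod_half, ZMod.card]; push_cast; rfl
      · simp [hj, hN]
    rw [prod_congr rfl fun j _ => h2 j, prod_mul_distrib, prod_const, card_univ, Fintype.card_fin,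
      prod_ite_mem, univ_inter, prod_const]
  have hsum : ∑ v, ‖exc l₀ E₀ v S x₀‖ ^ s
      ≤ N ^ k * ∑ g ∈ Fintype.piFinset (fun _ : Fin s => H), (bp g 0) ^ S.card := by
    have h0 : (0 : ℝ) ≤ ∑ v, ‖exc l₀ E₀ v S x₀‖ ^ s := sum_nonneg fun v _ => by positivity
    rw [← Real.norm_of_nonneg h0, ← Complex.norm_real, Complex.ofReal_sum, sum_congr rfl fun v _ => hreal v, hexp,
      mul_sum]
    refine (norm_sum_le _ _).trans (le_of_eq (sum_congr rfl fun g _ => ?_))
    rw [norm_mul, norm_prod, prod_congr rfl fun l _ => norm_char (g l) _, prod_const_one, one_mul, norm_mul,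
      norm_pow, norm_pow, Complex.norm_real, Complex.norm_real, Real.norm_of_nonneg (bp_nonneg g 0),
      Real.norm_of_nonneg (show 0 ≤ N by positivity)]
  refine hsum.trans ?_
  rw [mul_assoc]
  refine mul_le_mul_of_nonneg_left ?_ (by positivity)
  have hα₁ : ∀ g ∈ Fintype.piFinset (fun _ : Fin s => H), pr (fun _ => 1 / 16) g 0 ≤ α := by
    intro g hg
    rw [Fintype.mem_piFinset] at hg
    have hN0 : (0 : ℝ) < N := by positivity
    refine le_of_mul_le_mul_left ?_ hN0
    have h := avg_prod_phi (fun _ : Fin s => (1 / 16 : ℝ)) g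
    rw [ZMod.card] at h
    rw [hN, ← h]
    refine (sum_le_sum fun x _ => prod_le_mean_pow hs1 _ fun l => fb_nonneg (g l) x).trans ?_
    rw [sum_comm]
    have hl : ∀ l ∈ (univ : Finset (Fin s)),
        ∑ x : ZMod (2 ^ l₀), (1 / (s : ℝ)) * fb (g l x) ^ s ≤ (1 / (s : ℝ)) * (N * α) := by
      intro l _
      rw [← mul_sum]
      refine mul_le_mul_of_nonneg_left ?_ (by positivity)
      have h2 := avg_prod_phi (fun _ : Fin s => (1 / 16 : ℝ)) (fun _ => g l)
      simp only [prod_const, card_univ, Fintype.card_fin, ZMod.card] at h2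
      refine le_of_eq_of_le h2 ?_
      exact mul_le_mul_of_nonneg_left (pr_const_le l₀ E E₀ s hs r hr hlam _ (hg l)) (by positivity)
    refine (sum_le_card_nsmul _ _ _ hl).trans (le_of_eq ?_)
    rw [card_univ, Fintype.card_fin, nsmul_eq_mul]
    have hs' : (s : ℝ) ≠ 0 := by exact_mod_cast (by omega : s ≠ 0)
    field_simp
    rw [hN]
    ring
  have hα' : ∀ g ∈ Fintype.piFinset (fun _ : Fin s => H), bp g 0 ≤ α := fun g hg => by
    refine le_trans ?_ (hα₁ g hg)
    refine (bool_pr_le g g (fun _ => Or.inl rfl) 0).trans ?_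
    exact pr_le_of_phi_le 0 (fun _ => by norm_num) (fun _ => by norm_num) fun χ i =>
      phi_mono (by norm_num) (re_le_one χ _)
  set T : Finset (Fin s) → Finset (Fin s → AddChar (ZMod (2 ^ l₀)) ℂ) := fun D =>
    (Fintype.piFinset fun _ : Fin s => H).filter fun g =>
      Diss g D ∧ ∀ l ∉ D, ∃ x : Fin s → SignType, (∀ l' ∉ D, x l' = 0) ∧ g l = tot g x with hT
  have hex : ∀ g ∈ Fintype.piFinset (fun _ : Fin s => H),
      ∃ D ∈ (univ : Finset (Finset (Fin s))).filter (·.Nonempty), g ∈ T D := by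
    intro g hg
    have hgH := Fintype.mem_piFinset.1 hg
    set A := (univ : Finset (Finset (Fin s))).filter fun D => Diss g D with hA
    have hAne : A.Nonempty := by
      refine ⟨∅, ?_⟩
      simp only [hA, mem_filter, mem_univ, true_and]
      intro x hx _
      funext l; exact hx l (notMem_empty l)
    obtain ⟨D, hDA, hmax⟩ := exists_max_image A card hAne
    simp only [hA, mem_filter, mem_univ, true_and] at hDA
    have hne0 : ∀ l, g l ≠ 0 := by
      intro l h
      have := hgH l
      simp only [hH, highSet, mem_filter, mem_univ, true_and, h, AddChar.zero_apply] at this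
      exact this rfl
    have hDne : D.Nonempty := by
      by_contra hD
      rw [not_nonempty_iff_eq_empty] at hD
      subst hD
      have h1 : Diss g {⟨0, hs1⟩} := by
        intro x hx ht
        have hrest : ∀ l : Fin s, l ≠ ⟨0, hs1⟩ → x l = 0 := fun l hl => hx l (by simpa using hl)
        funext l
        by_cases hl : l = ⟨0, hs1⟩
        · subst hl
          unfold tot at ht
          rw [sum_eq_single ⟨0, hs1⟩ (fun b _ hb => by simp [hrest b hb, ival]) (by simp)] at ht
          cases hc : x ⟨0, hs1⟩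
          · rfl
          · simp [hc, ival] at ht; exact absurd ht (hne0 _)
          · simp [hc, ival] at ht; exact absurd ht (hne0 _)
        · exact hrest l hl
      have := hmax {⟨0, hs1⟩} (by simp only [hA, mem_filter, mem_univ, true_and]; exact h1)
      simp at this
    refine ⟨D, by simp [hDne], ?_⟩
    simp only [hT, mem_filter]
    refine ⟨hg, hDA, fun l hl => ?_⟩
    have hnot : ¬ Diss g (insert l D) := by
      intro h
      have := hmax (insert l D) (by simp only [hA, mem_filter, mem_univ, true_and]; exact h)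
      rw [card_insert_of_notMem hl] at this
      omega
    unfold Diss at hnot
    push Not at hnot
    obtain ⟨x, hxs, hxt, hxne⟩ := hnot
    have hxl : x l ≠ 0 := by
      intro h
      refine hxne (hDA x (fun l' hl' => ?_) hxt)
      by_cases he : l' = l
      · rw [he]; exact h
      · exact hxs l' (by simp [he, hl'])
    have hsplit : tot g x = ival (x l) • g l + tot g (fun l' => if l' = l then 0 else x l') := by
      unfold tot
      rw [← add_sum_erase _ _ (mem_univ l), ← add_sum_erase _ (fun l' => ival (if l' = l then 0 else x l') • g l') (mem_univ l)]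
      simp only [if_true, ival, SignType.coe_zero, zero_zsmul, zero_add]
      congr 1
      exact sum_congr rfl fun l' hl' => by simp [(mem_erase.1 hl').1]
    cases hc : x l
    · exact absurd hc hxl
    · refine ⟨fun l' => if l' = l then 0 else x l', fun l' hl' => ?_, ?_⟩
      · dsimp only
        split
        · rfl
        · next he => exact hxs l' (by simp [he, hl'])
      · rw [hxt, hc] at hsplit
        have h' : (0 : AddChar (ZMod (2 ^ l₀)) ℂ) = -g l + tot g (fun l' => if l' = l then 0 else x l') := by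
          simpa [ival] using hsplit
        exact neg_add_eq_zero.1 h'.symm
    · refine ⟨fun l' => if l' = l then 0 else -x l', fun l' hl' => ?_, ?_⟩
      · dsimp only
        split
        · rfl
        · next he => rw [hxs l' (by simp [he, hl'])]; rfl
      · rw [hxt, hc] at hsplit
        have h' : (0 : AddChar (ZMod (2 ^ l₀)) ℂ) = g l + tot g (fun l' => if l' = l then 0 else x l') := by
          simpa [ival] using hsplit
        rw [eq_neg_of_add_eq_zero_left h'.symm]
        unfold tot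
        rw [← sum_neg_distrib]
        refine sum_congr rfl fun l' _ => ?_
        dsimp only
        split
        · simp [ival]
        · rw [← neg_smul]; cases x l' <;> rfl
  have hcardT : ∀ D, ((T D).card : ℝ) ≤ 3 ^ (s * s) * N ^ D.card := by
    intro D
    let dec : ({l // l ∈ D} → AddChar (ZMod (2 ^ l₀)) ℂ) × (Fin s → Fin s → SignType) →
        (Fin s → AddChar (ZMod (2 ^ l₀)) ℂ) := fun p l =>
      if h : l ∈ D then p.1 ⟨l, h⟩ else ∑ l' : {l // l ∈ D}, ival (p.2 l l') • p.1 l'
    have hsub : T D ⊆ univ.image dec := by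
      intro g hg
      simp only [hT, mem_filter] at hg
      choose x hx0 hx using hg.2.2
      refine mem_image.2 ⟨(fun l => g l, fun l => if h : l ∈ D then 0 else x l h), mem_univ _, ?_⟩
      funext l
      by_cases h : l ∈ D
      · simp [dec, h]
      · simp only [dec, h, dite_false]
        rw [hx l h]
        unfold tot
        rw [← sum_subset (subset_univ D) (fun l' _ hl' => by simp [hx0 l h l' hl', ival])]
        exact (sum_coe_sort D (fun l' => ival (x l h l') • g l'))
    have := (card_le_card hsub).trans card_image_le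
    rw [card_univ, Fintype.card_prod, Fintype.card_fun, Fintype.card_fun, Fintype.card_fun, AddChar.card_eq,
      ZMod.card, Fintype.card_coe, Fintype.card_fin] at this
    calc ((T D).card : ℝ) ≤ (((2 ^ l₀) ^ D.card * (Fintype.card SignType ^ s) ^ s : ℕ) : ℝ) := by
          exact_mod_cast this
      _ = 3 ^ (s * s) * N ^ D.card := by
          rw [show Fintype.card SignType = 3 from rfl, hN]
          push_cast
          rw [← pow_mul (3 : ℝ)]
          ring
  calc ∑ g ∈ Fintype.piFinset (fun _ : Fin s => H), (bp g 0) ^ S.card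
      ≤ ∑ g ∈ Fintype.piFinset (fun _ : Fin s => H),
          ∑ D ∈ (univ : Finset (Finset (Fin s))).filter (·.Nonempty),
            (if g ∈ T D then (min ((1 / 2 : ℝ) ^ D.card) α) ^ S.card else 0) := by
        refine sum_le_sum fun g hg => ?_
        obtain ⟨D, hD, hgD⟩ := hex g hg
        refine le_trans ?_ (single_le_sum (fun D' _ => ?_) hD)
        · rw [if_pos hgD]
          simp only [hT, mem_filter] at hgD
          exact pow_le_pow_left₀ (bp_nonneg g 0) (le_min (bp_diss_le g D hgD.2.1) (hα' g hg)) _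
        · split
          · positivity
          · exact le_rfl
    _ ≤ ∑ D ∈ (univ : Finset (Finset (Fin s))).filter (·.Nonempty),
          ((T D).card : ℝ) * (min ((1 / 2 : ℝ) ^ D.card) α) ^ S.card := by
        rw [sum_comm]
        refine sum_le_sum fun D _ => ?_
        rw [← sum_filter, sum_const, nsmul_eq_mul]
        refine mul_le_mul_of_nonneg_right ?_ (by positivity)
        exact_mod_cast card_le_card fun g hg => (mem_filter.1 hg).2
    _ ≤ _ := by
        rw [mul_sum]
        refine sum_le_sum fun D _ => ?_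
        rw [← mul_assoc]
        exact mul_le_mul_of_nonneg_right (hcardT D) (by positivity)

end

end Vale.Agent.P160.Rate2
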