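import Vale.Agent.P160.Rate2.Corank
import Vale.Agent.P160.Rate.KeyBound

/-!
The parameters and the bound on the expected kernel.
-/

namespace Vale.Agent.P160.Rate2

open Finset Vale.Agent.P160.Rate

set_option linter.unusedSectionVars false

noncomputable section

/-- The block size. -/
def pk (n : ℕ) : ℕ := 418 * n / 1000

/-- The outside size. -/
def pm (n : ℕ) : ℕ := n - pk n

/-- The exponent of the modulus. -/
def pj (n : ℕ) : ℕ := 323 * n / 2000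

/-- The margin between support size and level. -/
def pl (n : ℕ) : ℕ := n / 2000

/-- The number of odd coordinates in a block. -/
def pu (n : ℕ) : ℕ := n / 1000

/-- The number of odd coordinates in a dense support. -/
def ps (n : ℕ) : ℕ := n / 10000

/-- The accuracy. -/
def pd : ℝ := 1 / 100000000

theorem pd_pos : 0 < pd := by unfold pd; norm_num

theorem pd_le : pd ≤ 1 := by unfold pd; norm_num

theorem param_bounds (n : ℕ) :
    ((pk n : ℝ) ≤ 418 * n / 1000 ∧ 418 * (n : ℝ) / 1000 - 1 ≤ pk n) ∧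
    ((pm n : ℝ) = n - pk n) ∧
    ((pj n : ℝ) ≤ 323 * n / 2000 ∧ 323 * (n : ℝ) / 2000 - 1 ≤ pj n) ∧
    ((pl n : ℝ) ≤ n / 2000 ∧ (n : ℝ) / 2000 - 1 ≤ pl n) ∧
    ((pu n : ℝ) ≤ n / 1000 ∧ (n : ℝ) / 1000 - 1 ≤ pu n) ∧
    ((ps n : ℝ) ≤ n / 10000 ∧ (n : ℝ) / 10000 - 1 ≤ ps n) := by
  have h1 : 1000 * pk n ≤ 418 * n ∧ 418 * n ≤ 1000 * pk n + 1000 := by unfold pk; omega
  have h2 : 2000 * pj n ≤ 323 * n ∧ 323 * n ≤ 2000 * pj n + 2000 := by unfold pj; omega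
  have h3 : 2000 * pl n ≤ n ∧ n ≤ 2000 * pl n + 2000 := by unfold pl; omega
  have h4 : 1000 * pu n ≤ n ∧ n ≤ 1000 * pu n + 1000 := by unfold pu; omega
  have h5 : 10000 * ps n ≤ n ∧ n ≤ 10000 * ps n + 10000 := by unfold ps; omega
  have h6 : pk n ≤ n := by unfold pk; omega
  have c := fun {a b : ℕ} (h : a ≤ b) => (Nat.cast_le (α := ℝ)).2 h
  have a1 := c h1.1; have a2 := c h1.2; have a3 := c h2.1; have a4 := c h2.2
  have a5 := c h3.1; have a6 := c h3.2; have a7 := c h4.1; have a8 := c h4.2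
  have a9 := c h5.1; have a10 := c h5.2
  push_cast at a1 a2 a3 a4 a5 a6 a7 a8 a9 a10
  refine ⟨⟨by linarith, by linarith⟩, ?_, ⟨by linarith, by linarith⟩, ⟨by linarith, by linarith⟩,
    ⟨by linarith, by linarith⟩, ⟨by linarith, by linarith⟩⟩
  rw [show pm n = n - pk n from rfl, Nat.cast_sub h6]

/-- The exponent inequality of the exposure bound. -/
theorem expo_ok {n k m i L c K cp : ℝ} (hn : 100000 ≤ n) (hK0 : 0 ≤ K) (hKn : 10000 * (K + 1) ≤ n)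
    (hk1 : k ≤ 418 * n / 1000) (hk2 : 418 * n / 1000 - 1 ≤ k) (hm : m = n - k)
    (hi : i ≤ 323 * n / 2000) (hL : L ≤ n / 2000) (hc : 500 * (K + 1) ≤ c) (hck : c ≤ k)
    (hcp : cp = min c (585 / 1000 * c + 415 / 1000 * (k - 1) - i - L)) :
    0 ≤ cp ∧ i * c + (1 + K) * m - cp * (m + c - k) ≤ 0 := by
  have hc0 : 0 ≤ c := by linarith
  have hA : 1147 / 100000 * n - 2 ≤ 415 / 1000 * (k - 1) - i - L := by linarith
  have hB : 164 / 1000 * n ≤ m - k := by linarith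
  have hm0 : (1 + K) * m ≤ (1 + K) * n := mul_le_mul_of_nonneg_left (by linarith) (by linarith)
  refine ⟨by rw [hcp]; exact le_min hc0 (by linarith), ?_⟩
  rw [hcp]
  rcases le_total c (585 / 1000 * c + 415 / 1000 * (k - 1) - i - L) with h | h
  · rw [min_eq_left h]
    have h1 : c * (1 / 400 * n) ≤ c * (m + c - k - i) := mul_le_mul_of_nonneg_left (by linarith) hc0
    have h2 : 500 * (K + 1) * (1 / 400 * n) ≤ c * (1 / 400 * n) := mul_le_mul_of_nonneg_right hc (by linarith)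
    nlinarith
  · rw [min_eq_right h]
    have h1 : (585 / 1000 * c + (1147 / 100000 * n - 2)) * (164 / 1000 * n + c)
        ≤ (585 / 1000 * c + 415 / 1000 * (k - 1) - i - L) * (m + c - k) :=
      mul_le_mul (by linarith) (by linarith) (by linarith) (by linarith)
    have h2 : i * c ≤ 323 * n / 2000 * c := mul_le_mul_of_nonneg_right hi hc0
    have h3 : (1 + K) * n ≤ 1 / 10000 * n * n := mul_le_mul_of_nonneg_right (by linarith) (by linarith)
    nlinarith [sq_nonneg (c - 4623 / 100000 * n), mul_le_mul_of_nonneg_left hn (show (0 : ℝ) ≤ n by linarith)]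

theorem eventually_neg_rpow (C a η : ℝ) (ha : 0 < a) (hη : 0 < η) :
    ∀ᶠ n : ℕ in Filter.atTop, C * (2 : ℝ) ^ (-(a * n)) ≤ η := by
  have hb : (2 : ℝ) ^ (-a) < 1 := Real.rpow_lt_one_of_one_lt_of_neg (by norm_num) (by linarith)
  have h := ((tendsto_pow_atTop_nhds_zero_of_lt_one (by positivity) hb).const_mul C)
  rw [mul_zero] at h
  filter_upwards [h.eventually_le_const hη] with n hn
  refine le_trans (le_of_eq ?_) hn
  rw [← Real.rpow_natCast ((2 : ℝ) ^ (-a)) n, ← Real.rpow_mul (by norm_num)]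
  ring_nf

theorem three_quarters_rpow (N : ℕ) : (3 / 4 : ℝ) ^ N ≤ (2 : ℝ) ^ (-(415 / 1000 : ℝ) * N) := by
  refine (pow_le_two_rpow (by norm_num) three_quarters_le N).trans (le_of_eq ?_)
  norm_num

/-- The factor is nearly one for small kernels. -/
theorem phi_small (n E₀ c₀ c i : ℕ) (r : ℝ) (hn : 100000 ≤ n) (hc : c ≤ c₀) (hij : i ≤ pj n)
    (hA : (2 : ℝ) ^ E₀ * r ^ ps n ≤ pd)
    (hU : (2 + (2 : ℝ) ^ E₀) * 2 ^ (c₀ + 2) * (2 : ℝ) ^ (-(1 / 10000 * (n : ℝ))) ≤ pd)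
    (hW : (2 + (2 : ℝ) ^ E₀) * 2 ^ (c₀ + 2) * (2 : ℝ) ^ (-(1 / 1000 * (n : ℝ))) ≤ pd) :
    Phi (pk n) i E₀ (pl n) (ps n) (pu n) c pd r ≤ 1 + 4 * pd := by
  obtain ⟨⟨hk1, hk2⟩, hm, ⟨hj1, hj2⟩, ⟨hl1, hl2⟩, ⟨hu1, hu2⟩, ⟨hs1, hs2⟩⟩ := param_bounds n
  set k := pk n
  set L := pl n
  set u := pu n
  set σ := ps n
  set C₀ : ℝ := 2 + 2 ^ E₀ with hC₀
  have hC0 : 0 ≤ C₀ := by positivity
  have hn' : (100000 : ℝ) ≤ n := by exact_mod_cast hn
  have hiR : (i : ℝ) ≤ 323 * n / 2000 := le_trans (by exact_mod_cast hij) hj1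
  have hcR : (c : ℝ) ≤ c₀ := by exact_mod_cast hc
  have h1 : C₀ * min 1 (2 ^ σ * (3 / 4 : ℝ) ^ (u - (c + 1))) ≤ pd := by
    refine le_trans (mul_le_mul_of_nonneg_left (min_le_right _ _) hC0) (le_trans ?_ hU)
    rw [mul_assoc C₀]
    refine mul_le_mul_of_nonneg_left ?_ hC0
    have h := (Nat.cast_le (α := ℝ)).2 (show u ≤ (u - (c + 1)) + (c + 1) by omega)
    push_cast at h
    refine (mul_le_mul_of_nonneg_left (three_quarters_rpow _) (by positivity)).trans ?_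
    simp only [← Real.rpow_natCast (2 : ℝ), ← Real.rpow_add (show (0 : ℝ) < 2 by norm_num)]
    refine Real.rpow_le_rpow_of_exponent_le (by norm_num) ?_
    push_cast
    linarith
  have h2 : C₀ * 2 ^ (i + L) * (3 / 4 : ℝ) ^ (k - (c + 1)) ≤ pd := by
    refine le_trans ?_ hW
    rw [mul_assoc, mul_assoc C₀]
    refine mul_le_mul_of_nonneg_left ?_ hC0
    have h := (Nat.cast_le (α := ℝ)).2 (show k ≤ (k - (c + 1)) + (c + 1) by omega)
    push_cast at h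
    refine (mul_le_mul_of_nonneg_left (three_quarters_rpow _) (by positivity)).trans ?_
    simp only [← Real.rpow_natCast (2 : ℝ), ← Real.rpow_add (show (0 : ℝ) < 2 by norm_num)]
    refine Real.rpow_le_rpow_of_exponent_le (by norm_num) ?_
    push_cast
    linarith
  unfold Phi
  linarith

/-- The row factor for large kernels. -/
theorem phi_large {k i E₀ L σ u c : ℕ} {δ r LK cp : ℝ} (hr : (2 : ℝ) ^ E₀ * r ^ σ ≤ pd) (hδ : δ ≤ pd)
    (hK : 4 * (2 + (2 : ℝ) ^ E₀) ≤ (2 : ℝ) ^ LK)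
    (hcp : cp = min (c : ℝ) (585 / 1000 * c + 415 / 1000 * ((k : ℝ) - 1) - i - L)) :
    (1 / 2 : ℝ) ^ c * Phi k i E₀ L σ u c δ r ≤ (2 : ℝ) ^ (-cp) * (2 : ℝ) ^ LK := by
  have hpd : pd ≤ 1 / 2 := by unfold pd; norm_num
  set C₀ : ℝ := 2 + 2 ^ E₀ with hC₀
  have hC0 : 2 ≤ C₀ := le_add_of_nonneg_right (by positivity)
  set e : ℝ := (i : ℝ) + L - 415 / 1000 * ((k : ℝ) - (c + 1)) with he
  have hΦ : Phi k i E₀ L σ u c δ r ≤ 2 * C₀ * (1 + (2 : ℝ) ^ e) := by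
    have h34 : (2 : ℝ) ^ (i + L) * (3 / 4) ^ (k - (c + 1)) ≤ (2 : ℝ) ^ e := by
      refine (mul_le_mul_of_nonneg_left (three_quarters_rpow _) (by positivity)).trans ?_
      rw [← Real.rpow_natCast, ← Real.rpow_add (show (0 : ℝ) < 2 by norm_num)]
      refine Real.rpow_le_rpow_of_exponent_le (by norm_num) ?_
      have := (Nat.cast_le (α := ℝ)).2 (show k ≤ (k - (c + 1)) + (c + 1) by omega)
      push_cast at this ⊢
      rw [he]; linarith
    have h1 := mul_le_mul_of_nonneg_left (min_le_left (1 : ℝ) (2 ^ σ * (3 / 4) ^ (u - (c + 1))))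
      (show 0 ≤ C₀ by linarith)
    have h2 := mul_le_mul_of_nonneg_left h34 (show 0 ≤ C₀ by linarith)
    have h4 : (0 : ℝ) ≤ C₀ * (2 : ℝ) ^ e := mul_nonneg (by linarith) (by positivity)
    unfold Phi
    rw [← hC₀, mul_assoc C₀ ((2 : ℝ) ^ (i + L))]
    linarith
  refine (mul_le_mul_of_nonneg_left hΦ (by positivity)).trans ?_
  have hpc : (1 / 2 : ℝ) ^ c * (1 + (2 : ℝ) ^ e) ≤ 2 * (2 : ℝ) ^ (-cp) := by
    rw [one_div_pow, mul_add, mul_one, two_mul, one_div, ← Real.rpow_natCast, ← Real.rpow_neg (by norm_num),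
      ← Real.rpow_add (show (0 : ℝ) < 2 by norm_num)]
    have h1 := min_le_left (c : ℝ) (585 / 1000 * c + 415 / 1000 * ((k : ℝ) - 1) - i - L)
    have h2 := min_le_right (c : ℝ) (585 / 1000 * c + 415 / 1000 * ((k : ℝ) - 1) - i - L)
    rw [← hcp] at h1 h2
    refine add_le_add ?_ ?_ <;> refine Real.rpow_le_rpow_of_exponent_le (by norm_num) ?_
    · linarith
    · rw [he]; linarith
  calc (1 / 2 : ℝ) ^ c * (2 * C₀ * (1 + (2 : ℝ) ^ e))
      = 2 * C₀ * ((1 / 2 : ℝ) ^ c * (1 + (2 : ℝ) ^ e)) := by ring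
    _ ≤ 2 * C₀ * (2 * (2 : ℝ) ^ (-cp)) := mul_le_mul_of_nonneg_left hpc (by linarith)
    _ = (4 * C₀) * (2 : ℝ) ^ (-cp) := by ring
    _ ≤ _ := by rw [mul_comm]; exact mul_le_mul_of_nonneg_left hK (by positivity)

/-- One term for small kernels. -/
theorem small_sum {k m : ℕ} (i c : ℕ) (Φ : ℝ) (hΦ0 : 0 ≤ Φ) (hΦ : Φ ≤ 1 + 4 * pd) (n : ℕ)
    (hk1 : (k : ℝ) ≤ 418 * n / 1000) (hm : (m : ℝ) = n - k) (hi : (i : ℝ) ≤ 323 * n / 2000)
    (hn : (100000 : ℝ) ≤ n) (hi1 : 1 ≤ i) (v : Fin k → ℤ) (i₀ : Fin k) (hv : (v i₀ : ZMod 2) ≠ 0)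
    (hrow : ∀ W : Submodule (ZMod 2) (V2 k), c + 1 ≤ Module.finrank (ZMod 2) W →
      rowPr (1 / 2) (fun x : Row k => ((2 ^ i : ℕ) : ℤ) ∣ dot v x ∧ ∀ w ∈ W, parEval (2 ^ i) v w x = 0)
        ≤ (1 / 2) ^ c * (Φ / 2 ^ i)) :
    ((2 : ℝ) ^ i) ^ (c + 1) * dSum (2 ^ i) v m (c + 1)
      ≤ (2 : ℝ) ^ ((1 / 40000 : ℝ) * n) * ((2 : ℝ) ^ i / ((2 : ℝ) ^ i) ^ m) := by
  have h := dSum_small_le (m := m) (2 ^ i) (dvd_pow_self 2 (by omega)) v i₀ hv c _ (by positivity) hrow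
  refine (mul_le_mul_of_nonneg_left h (by positivity)).trans ?_
  have hnat : i + (k + 1) ≤ m := by
    have : ((i + (k + 1) : ℕ) : ℝ) ≤ m := by push_cast; rw [hm]; linarith
    exact_mod_cast this
  have hpow : (2 : ℝ) ^ (i * c) * 2 ^ ((k + 1) * c) * (1 / 2) ^ (c * m) ≤ 1 := by
    rw [← pow_add, one_div_pow, mul_one_div, div_le_one (by positivity)]
    refine pow_le_pow_right₀ (by norm_num) ?_
    rw [← add_mul, mul_comm c m]
    exact Nat.mul_le_mul_right c hnat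
  calc ((2 : ℝ) ^ i) ^ (c + 1) * (2 ^ ((k + 1) * c) * ((1 / 2) ^ c * (Φ / 2 ^ i)) ^ m)
      = (2 ^ (i * c) * 2 ^ ((k + 1) * c) * (1 / 2) ^ (c * m)) * Φ ^ m * ((2 : ℝ) ^ i / ((2 : ℝ) ^ i) ^ m) := by
        simp only [mul_pow, div_pow, pow_succ, ← pow_mul, one_pow]
        field_simp
    _ ≤ 1 * (1 + 4 * pd) ^ m * ((2 : ℝ) ^ i / ((2 : ℝ) ^ i) ^ m) := by gcongr
    _ ≤ _ := by
        rw [one_mul]
        refine mul_le_mul_of_nonneg_right ((one_add_pow_le (by unfold pd; norm_num) m).trans ?_) (by positivity)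
        refine Real.rpow_le_rpow_of_exponent_le (by norm_num) ?_
        have : (m : ℝ) ≤ n := by linarith [(Nat.cast_nonneg k : (0 : ℝ) ≤ k)]
        exact mul_le_mul (by unfold pd; norm_num) this (Nat.cast_nonneg _) (by norm_num)

/-- One term for large kernels. -/
theorem large_sum {k m : ℕ} (i c : ℕ) (cp LK : ℝ) (hcp : 0 ≤ cp)
    (hexp : (i : ℝ) * c + (1 + LK) * m - cp * ((m : ℝ) + c - k) ≤ 0) (n : ℕ) (v : Fin k → ℤ)
    (hk1 : (k : ℝ) ≤ 418 * n / 1000) (hm : (m : ℝ) = n - k) (hi : (i : ℝ) ≤ 323 * n / 2000)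
    (hn : (100000 : ℝ) ≤ n)
    (hdvd : rowPr (1 / 2) (fun x : Row k => ((2 ^ i : ℕ) : ℤ) ∣ dot v x) ≤ (2 : ℝ) ^ LK / 2 ^ i)
    (hrow : ∀ W : Submodule (ZMod 2) (V2 k), c + 1 ≤ Module.finrank (ZMod 2) W →
      rowPr (1 / 2) (fun x : Row k => ((2 ^ i : ℕ) : ℤ) ∣ dot v x ∧ ∀ w ∈ W, parEval (2 ^ i) v w x = 0)
        ≤ (2 : ℝ) ^ (-cp) * ((2 : ℝ) ^ LK / 2 ^ i)) :
    ((2 : ℝ) ^ i) ^ (c + 1) * dSum (2 ^ i) v m (c + 1)
      ≤ (2 : ℝ) ^ ((1 / 40000 : ℝ) * n) * ((2 : ℝ) ^ i / ((2 : ℝ) ^ i) ^ m) := by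
  have h := dSum_large_le (m := m) (2 ^ i) v c ((2 : ℝ) ^ LK / 2 ^ i) ((2 : ℝ) ^ (-cp)) (by positivity)
    (by positivity) (Real.rpow_le_one_of_one_le_of_nonpos (by norm_num) (by linarith)) hdvd hrow
  refine (mul_le_mul_of_nonneg_left h (by positivity)).trans ?_
  have hkm : k ≤ m + c := by
    have : (k : ℝ) ≤ ((m + c : ℕ) : ℝ) := by
      push_cast; linarith [(Nat.cast_nonneg c : (0 : ℝ) ≤ c)]
    exact_mod_cast this
  have hsub : ((m + c - k : ℕ) : ℝ) = (m : ℝ) + c - k := by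
    rw [Nat.cast_sub hkm]; push_cast; ring
  refine le_trans (le_of_eq ?_) (mul_le_mul_of_nonneg_right (show
    (2 : ℝ) ^ ((i : ℝ) * c + ((m : ℝ) + LK * m) + (-cp) * (m + c - k : ℕ)) ≤ (2 : ℝ) ^ ((1 / 40000 : ℝ) * n) from
    Real.rpow_le_rpow_of_exponent_le (by norm_num) ?_) (by positivity))
  · have h2 : (0 : ℝ) < 2 := by norm_num
    simp only [Real.rpow_add h2, Real.rpow_mul h2.le, Real.rpow_natCast, div_pow, pow_succ]
    field_simp
  · rw [hsub]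
    have : (0 : ℝ) ≤ 1 / 40000 * n := by positivity
    linarith

/-- The expected kernel, and the star factor. -/
theorem kSum_key (E₀ : ℕ) (r : ℝ) (hr0 : 0 ≤ r) (hr1 : r < 1) :
    ∀ᶠ n : ℕ in Filter.atTop, ∀ i, 1 ≤ i → i ≤ pj n →
      ∀ v : Fin (pk n) → ℤ, Nice i E₀ (pl n) (pu n) pd r v →
        kSum (2 ^ i) v (pm n) ≤ (2 : ℝ) ^ ((1 / 20000 : ℝ) * n) * (2 : ℝ) ^ i / ((2 : ℝ) ^ i) ^ pm n
        ∧ Phi (pk n) i E₀ (pl n) (ps n) (pu n) 0 pd r ≤ 2 := by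
  set C₀ : ℝ := 2 + 2 ^ E₀ with hC₀
  have hC : 1 ≤ C₀ := le_add_of_le_of_nonneg (by norm_num) (by positivity)
  set LK : ℝ := (E₀ : ℝ) + 5 with hLK
  have hK4 : 4 * C₀ ≤ (2 : ℝ) ^ LK := by
    rw [hLK, Real.rpow_add (by norm_num), Real.rpow_natCast, hC₀]
    have : (1 : ℝ) ≤ 2 ^ E₀ := one_le_pow₀ (by norm_num)
    norm_num
    linarith
  obtain ⟨c₀, hc₀⟩ := exists_nat_ge (500 * (LK + 1))
  set η : ℝ := pd with hη
  have hη0 : 0 < η := pd_pos
  have hA : ∀ᶠ n : ℕ in Filter.atTop, (2 : ℝ) ^ E₀ * r ^ ps n ≤ η := by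
    have ht : Filter.Tendsto ps Filter.atTop Filter.atTop := Nat.tendsto_div_const_atTop (by norm_num)
    have := ((tendsto_pow_atTop_nhds_zero_of_lt_one hr0 hr1).comp ht).const_mul ((2 : ℝ) ^ E₀)
    rw [mul_zero] at this
    exact this.eventually_le_const hη0
  filter_upwards [hA, eventually_neg_rpow ((2 + (2 : ℝ) ^ E₀) * 2 ^ (c₀ + 2)) (1 / 10000) η (by norm_num) hη0,
    eventually_neg_rpow ((2 + (2 : ℝ) ^ E₀) * 2 ^ (c₀ + 2)) (1 / 1000) η (by norm_num) hη0,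
    eventually_linear (1 / 10000) (LK + 1) (by norm_num), Filter.eventually_ge_atTop 100000,
    (tendsto_pow_const_div_const_pow_of_one_lt 1
      (Real.one_lt_rpow (show (1 : ℝ) < 2 by norm_num) (show (0 : ℝ) < 1 / 40000 by norm_num))).eventually_le_const
      (show (0 : ℝ) < 1 / 3 by norm_num)]
    with n hnA hnU hnK hnL hnN hpoly
  obtain ⟨⟨hk1, hk2⟩, hm, ⟨hj1, hj2⟩, ⟨hl1, hl2⟩, ⟨hu1, hu2⟩, -⟩ := param_bounds n
  have hn : (100000 : ℝ) ≤ n := by exact_mod_cast hnN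
  set k := pk n with hk
  set m := pm n
  set L := pl n
  set u := pu n
  set σ := ps n
  intro i hi1 hij v hv
  have hiR : (i : ℝ) ≤ 323 * n / 2000 := le_trans (by exact_mod_cast hij) hj1
  have hη4 : η = 1 / 100000000 := rfl
  have hsmall : ∀ c, c ≤ c₀ → Phi (pk n) i E₀ (pl n) (ps n) (pu n) c η r ≤ 1 + 4 * η :=
    fun c hc => phi_small n E₀ c₀ c i r hnN hc hij hnA hnU hnK
  refine ⟨?_, (hsmall 0 (Nat.zero_le _)).trans (by linarith)⟩
  have hodd : 0 < u := by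
    have : (0 : ℝ) < u := by linarith
    exact_mod_cast this
  obtain ⟨i₀, hi₀⟩ := card_pos.1 (lt_of_lt_of_le hodd hv.odd)
  have hi₀' := (mem_filter.1 hi₀).2
  refine (kSum_le i hi1 v i₀ hi₀' m).trans ?_
  have hterm : ∀ d ∈ Icc 1 (k + 1), ((2 : ℝ) ^ i) ^ d * dSum (2 ^ i) v m d
      ≤ (2 : ℝ) ^ ((1 / 40000 : ℝ) * n) * ((2 : ℝ) ^ i / ((2 : ℝ) ^ i) ^ m) := by
    intro d hd
    rw [mem_Icc] at hd
    obtain ⟨c, rfl⟩ : ∃ c, d = c + 1 := ⟨d - 1, by omega⟩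
    have hrow := fun W hW => row_bound hv σ c W hW
    by_cases hc : c ≤ c₀
    · exact small_sum i c _ (Phi_nonneg k i E₀ L σ u c η r hη0.le hr0) (hsmall c hc) n hk1 hm hiR hn hi1 v i₀ hi₀' hrow
    · have hck : (c : ℝ) ≤ k := by
        have : c ≤ k := by omega
        exact_mod_cast this
      have hcR : (c₀ : ℝ) ≤ c := by exact_mod_cast (le_of_lt (Nat.lt_of_not_le hc))
      obtain ⟨hcp0, hexp⟩ := expo_ok (K := LK) hn (by positivity) (by linarith) hk1 hk2 hm hiR hl1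
        (hc₀.trans hcR) hck rfl
      refine large_sum i c _ LK hcp0 hexp n v hk1 hm hiR hn ?_ fun W hW => (hrow W hW).trans ?_
      · refine (dvd_bound hv σ).trans (div_le_div_of_nonneg_right ?_ (by positivity))
        have := hsmall 0 (Nat.zero_le _)
        have : (1 : ℝ) ≤ 2 ^ E₀ := one_le_pow₀ (by norm_num)
        linarith
      · rw [← mul_div_assoc, ← mul_div_assoc]
        exact div_le_div_of_nonneg_right (phi_large hnA le_rfl hK4 rfl) (by positivity)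
  refine (sum_le_card_nsmul _ _ _ hterm).trans ?_
  rw [Nat.card_Icc, nsmul_eq_mul, ← mul_assoc, mul_div_assoc]
  refine mul_le_mul_of_nonneg_right ?_ (by positivity)
  rw [show (1 / 20000 : ℝ) * n = 1 / 40000 * n + 1 / 40000 * n by ring, Real.rpow_add (by norm_num)]
  refine mul_le_mul_of_nonneg_right ?_ (by positivity)
  rw [pow_one, div_le_div_iff₀ (by positivity) (by norm_num), one_mul] at hpoly
  rw [Real.rpow_mul (by norm_num), Real.rpow_natCast]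
  refine le_trans ?_ hpoly
  rw [show k + 1 + 1 - 1 = k + 1 by omega]
  push_cast
  linarith

end

end Vale.Agent.P160.Rate2
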