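import Vale.Agent.P160.Rate2.Count
import Vale.Agent.P160.Rate2.Family
import Vale.Agent.P160.Rate.Reduction

/-!
Dense null vectors: domination by mixtures of lazy two-block models.
-/

namespace Vale.Agent.P160.Rate2

open Finset Vale.Agent.P160.Rate

set_option linter.unusedSectionVars false

noncomputable section

variable {m k n : ℕ}

/-- The odd coordinates. -/
def oddSet (z : Fin n → ℤ) : Finset (Fin n) := univ.filter fun i => (z i : ZMod 2) ≠ 0

/-- The block vector of a labelling. -/
def blk (z : Fin n → ℤ) (σ : Bij m k n) : Fin k → ℤ := fun c => z (σ (Sum.inr c))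

theorem cnt_eq_oddIn (z : Fin n → ℤ) (σ : Bij m k n) : cnt (oddSet z) σ = oddIn (blk z σ) univ := by
  unfold cnt oddIn
  congr 1
  ext c
  simp only [oddSet, blk, mem_filter, mem_univ, true_and]
  exact ⟨fun h => mem_filter.2 ⟨mem_univ _, h⟩, fun h => (mem_filter.1 h).2⟩

/-- The parameters of one instance. -/
structure Par where
  n : ℕ
  m : ℕ
  k : ℕ
  E₀ : ℕ
  L : ℕ
  u : ℕ
  T : ℕ
  δ : ℝ
  r : ℝ

/-- All blocks with many odd coordinates are good up to the level. -/
def AllGood (p : Par) (i : ℕ) (z : Fin p.n → ℤ) : Prop :=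
  ∀ σ : Bij p.m p.k p.n, p.u ≤ cnt (oddSet z) σ → Good i p.E₀ p.L p.δ (blk z σ)

/-- A dense null vector. -/
def DenseEv (p : Par) (b : Sym2 (Fin p.n) → Bool) : Prop :=
  ∃ z, IsNull b z ∧ p.T < (oddSet z).card

/-- A dense null vector whose block is bad for the first time above level `l`. -/
def BadAt (p : Par) (σ₀ : Bij p.m p.k p.n) (l : ℕ) (b : Sym2 (Fin p.n) → Bool) : Prop :=
  ∃ z, IsNull b z ∧ p.T < (oddSet z).card ∧ p.u ≤ cnt (oddSet z) σ₀ ∧
    ¬ GoodAt (l + 1) p.E₀ p.L p.δ (blk z σ₀) ∧ AllGood p l z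

/-- The standing hypotheses. -/
structure Ok (p : Par) : Prop where
  hmk : p.m + p.k = p.n
  hn : 1000 ≤ p.n
  hu : 1000 ≤ p.u
  hk : 400 * p.n ≤ p.k * (p.T + 1)
  hTu : 2 * p.u * p.n ≤ (p.T + 1) * p.k
  hfreq : 2 * (p.m : ℝ) * p.k ≤ 4868 / 10000 * ((p.n : ℝ) * ((p.n : ℝ) - 1))
  hku : p.k ≤ 500 * p.u

/-- The labellings with enough odd coordinates in the block. -/
def gset (p : Par) (O : Finset (Fin p.n)) : Finset (Bij p.m p.k p.n) := univ.filter fun σ => p.u ≤ cnt O σ

theorem gset_card {p : Par} (ok : Ok p) (O : Finset (Fin p.n)) (hO : p.T < O.card) :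
    99 / 100 * (Fintype.card (Bij p.m p.k p.n) : ℝ) ≤ (gset p O).card := by
  classical
  have hN := card_bij_pos ok.hmk
  have hn : (1000 : ℝ) ≤ p.n := by exact_mod_cast ok.hn
  have hOT : ((p.T : ℝ) + 1) ≤ O.card := by exact_mod_cast hO
  have hk : 400 * (p.n : ℝ) ≤ p.k * ((p.T : ℝ) + 1) := by exact_mod_cast ok.hk
  have hTu : 2 * (p.u : ℝ) * p.n ≤ ((p.T : ℝ) + 1) * p.k := by exact_mod_cast ok.hTu
  have hk0 : (0 : ℝ) ≤ p.k := Nat.cast_nonneg _
  have h := few_bad ok.hmk (by have := ok.hn; omega) O p.u (hTu.trans (mul_le_mul_of_nonneg_right hOT hk0))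
  set B := univ.filter fun σ : Bij p.m p.k p.n => cnt O σ < p.u
  have hsplit : (gset p O).card + B.card = Fintype.card (Bij p.m p.k p.n) := by
    have := card_filter_add_card_filter_not (s := (univ : Finset (Bij p.m p.k p.n))) (fun σ => p.u ≤ cnt O σ)
    rw [card_univ] at this
    simp only [gset, B]
    convert this using 3
    ext σ; simp [not_le]
  have hμ : (400 : ℝ) ≤ (O.card * p.k : ℝ) / p.n := by
    rw [le_div_iff₀ (by linarith)]
    nlinarith [mul_le_mul_of_nonneg_right hOT hk0]
  have h2 := mul_le_mul_of_nonneg_left hμ (Nat.cast_nonneg B.card : (0 : ℝ) ≤ B.card)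
  have h3 := congrArg (Nat.cast (R := ℝ)) hsplit
  push_cast at h3
  linarith

theorem cross_freq {p : Par} (ok : Ok p) (O : Finset (Fin p.n)) (hO : p.T < O.card) {a b : Fin p.n}
    (hab : a ≠ b) : ∑ σ ∈ gset p O, cross σ a b / (gset p O).card ≤ 492 / 1000 := by
  have hN := card_bij_pos ok.hmk
  have hG := gset_card ok O hO
  have hG0 : (0 : ℝ) < (gset p O).card := by linarith
  have hn : (1000 : ℝ) ≤ p.n := by exact_mod_cast ok.hn
  have h1 : ∑ σ ∈ gset p O, cross σ a b ≤ ∑ σ : Bij p.m p.k p.n, cross σ a b :=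
    sum_le_sum_of_subset_of_nonneg (subset_univ _) fun σ _ _ => cross_nonneg σ a b
  have h2 := sum_cross ok.hmk hab
  have hn1 : (0 : ℝ) < (p.n : ℝ) * ((p.n : ℝ) - 1) := mul_pos (by linarith) (by linarith)
  have h3 : ∑ σ : Bij p.m p.k p.n, cross σ a b ≤ 4868 / 10000 * (Fintype.card (Bij p.m p.k p.n) : ℝ) := by
    refine le_of_mul_le_mul_left ?_ hn1
    rw [h2]
    have := mul_le_mul_of_nonneg_left ok.hfreq hN.le
    linarith
  rw [← sum_div, div_le_iff₀ hG0]
  linarith

theorem fq_eq_bp {G : Type*} [AddCommGroup G] [Fintype G] [DecidableEq G] (g : Sym2 (Fin n) → G) (h : G) :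
    fq (fun b => (∑ e, if b e then g e else 0) = h) = bp g h := by
  unfold fq bp
  congr! 3

theorem pr_nonneg {ι G : Type*} [Fintype ι] [DecidableEq ι] [AddCommGroup G] [Fintype G] [DecidableEq G]
    (g : ι → G) (h : G) : 0 ≤ pr (fun _ => (1 / 2 : ℝ)) g h :=
  sum_nonneg fun x _ => by
    split
    · exact fw_nonneg (fun _ => by norm_num) (fun _ => by norm_num) x
    · exact le_rfl

/-- Domination by the mixture of two-block models with a star. -/
theorem mix_quad {p : Par} (ok : Ok p) {G : Type*} [AddCommGroup G] [Fintype G] [DecidableEq G]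
    (g : Sym2 (Fin p.n) → G) (h : G) (O : Finset (Fin p.n)) (hO : p.T < O.card) :
    bp g h ≤ 100 / (99 * (Fintype.card (Bij p.m p.k p.n) : ℝ) * p.u) *
      ∑ σ : Bij p.m p.k p.n, ∑ c : Fin p.k, if p.u ≤ cnt O σ ∧ σ (Sum.inr c) ∈ O then
        pr (fun _ => (1 / 2 : ℝ))
          (fun e => if e ∈ (univ.map (allEdge (m := p.m) c)).map (emap σ) then g e else 0) 0 else 0 := by
  classical
  have hN := card_bij_pos ok.hmk
  have hG := gset_card ok O hO
  have hG0 : (0 : ℝ) < (gset p O).card := by linarith
  have hu0 : (1000 : ℝ) ≤ p.u := by exact_mod_cast ok.hu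
  set NG : ℝ := ((gset p O).card : ℝ) with hNG
  set w : Bij p.m p.k p.n × Fin p.k → ℝ := fun q =>
    if p.u ≤ cnt O q.1 ∧ q.1 (Sum.inr q.2) ∈ O then 1 / (NG * cnt O q.1) else 0 with hw
  have hw0 : ∀ q, 0 ≤ w q := fun q => by simp only [hw]; split <;> positivity
  have hwle : ∀ q, w q ≤ if p.u ≤ cnt O q.1 then 1 / (NG * p.u) else 0 := fun q => by
    simp only [hw]
    by_cases h1 : p.u ≤ cnt O q.1
    · rw [if_pos h1]
      split
      · refine one_div_le_one_div_of_le (by positivity) (mul_le_mul_of_nonneg_left ?_ hG0.le)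
        exact_mod_cast h1
      · positivity
    · rw [if_neg h1, if_neg fun h => h1 h.1]
  have hrow : ∀ σ, ∑ c, w (σ, c) = if p.u ≤ cnt O σ then 1 / NG else 0 := by
    intro σ
    simp only [hw]
    by_cases h1 : p.u ≤ cnt O σ
    · simp only [h1, true_and, if_true]
      rw [← sum_filter, sum_const, nsmul_eq_mul, show (univ.filter fun c => σ (Sum.inr c) ∈ O).card = cnt O σ from rfl]
      have hcu : (p.u : ℝ) ≤ cnt O σ := by exact_mod_cast h1
      have : (cnt O σ : ℝ) ≠ 0 := by linarith
      field_simp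
    · simp [h1]
  have hsum : ∑ q, w q = 1 := by
    rw [Fintype.sum_prod_type]
    simp only [hrow]
    rw [← sum_filter, sum_const, nsmul_eq_mul, show (univ.filter fun σ => p.u ≤ cnt O σ) = gset p O from rfl]
    rw [← hNG]; field_simp
  have hf : ∀ e, ∑ q ∈ univ.filter (fun q : Bij p.m p.k p.n × Fin p.k =>
      e ∈ (univ.map (allEdge (m := p.m) q.2)).map (emap q.1)), w q ≤ 1 / 2 := by
    intro e
    induction e using Sym2.ind with
    | h a b =>
      by_cases hab : a = b
      · refine le_trans (le_of_eq (sum_eq_zero fun q hq => ?_)) (by norm_num)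
        exact absurd hab (mem_all q.1 q.2 a b (mem_filter.1 hq).2).1
      set st : Bij p.m p.k p.n → Fin p.k → ℝ := fun σ c =>
        (if σ (Sum.inr c) = a then 1 else 0) + (if σ (Sum.inr c) = b then 1 else 0) with hst
      have hst2 : ∀ σ, ∑ c, st σ c ≤ 2 := by
        intro σ
        have hone : ∀ x, ∑ c : Fin p.k, (if σ (Sum.inr c) = x then (1 : ℝ) else 0) ≤ 1 := by
          intro x
          rw [sum_boole]
          have : (univ.filter fun c : Fin p.k => σ (Sum.inr c) = x).card ≤ 1 := by
            refine card_le_one.2 fun c hc c' hc' => ?_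
            simp only [mem_filter, mem_univ, true_and] at hc hc'
            exact Sum.inr_injective (σ.injective (hc.trans hc'.symm))
          exact_mod_cast this
        simp only [hst, sum_add_distrib]
        linarith [hone a, hone b]
      calc ∑ q ∈ univ.filter (fun q : Bij p.m p.k p.n × Fin p.k =>
            s(a, b) ∈ (univ.map (allEdge (m := p.m) q.2)).map (emap q.1)), w q
          ≤ ∑ q : Bij p.m p.k p.n × Fin p.k, (w q * cross q.1 a b
              + (if p.u ≤ cnt O q.1 then 1 / (NG * p.u) else 0) * st q.1 q.2) := by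
            rw [sum_filter]
            refine sum_le_sum fun q _ => ?_
            have hB : 0 ≤ (if p.u ≤ cnt O q.1 then 1 / (NG * p.u) else 0) := (hw0 q).trans (hwle q)
            have hst0 : 0 ≤ st q.1 q.2 := by simp only [hst]; split <;> split <;> norm_num
            have hc0 := mul_nonneg (hw0 q) (cross_nonneg q.1 a b)
            split
            · next hmem =>
              rcases (mem_all q.1 q.2 a b hmem).2 with h1 | h1 | h1
              · rw [h1, mul_one]
                linarith [mul_nonneg hB hst0]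
              all_goals
                have : 1 ≤ st q.1 q.2 := by simp only [hst, h1, if_true]; split <;> norm_num
                have := mul_le_mul_of_nonneg_left this hB
                linarith [hwle q]
            · exact add_nonneg hc0 (mul_nonneg hB hst0)
        _ = (∑ σ, (∑ c, w (σ, c)) * cross σ a b)
              + ∑ σ, (if p.u ≤ cnt O σ then 1 / (NG * p.u) else 0) * ∑ c, st σ c := by
            rw [Fintype.sum_prod_type]
            simp only [sum_add_distrib, sum_mul, mul_sum]
        _ ≤ 492 / 1000 + 2 / p.u := by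
            refine add_le_add ?_ ?_
            · simp only [hrow, ite_mul, zero_mul, one_div_mul_eq_div]
              rw [← sum_filter]
              exact cross_freq ok O hO hab
            · refine (sum_le_sum fun σ _ => mul_le_mul_of_nonneg_left (hst2 σ) (by split <;> positivity)).trans ?_
              rw [← sum_mul, ← sum_filter, sum_const, nsmul_eq_mul]
              rw [show (univ.filter fun σ => p.u ≤ cnt O σ) = gset p O from rfl, ← hNG]
              refine le_of_eq ?_
              field_simp
        _ ≤ 1 / 2 := by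
            have : 2 / (p.u : ℝ) ≤ 2 / 1000 := div_le_div_of_nonneg_left (by norm_num) (by norm_num) hu0
            linarith
  refine (bp_le_mix g h w (fun _ => 1) (fun q => (univ.map (allEdge (m := p.m) q.2)).map (emap q.1)) hw0 hsum
    (fun _ => one_pos) (by simp) hf).trans ?_
  rw [Fintype.sum_prod_type, mul_sum]
  refine sum_le_sum fun σ _ => ?_
  rw [mul_sum]
  refine sum_le_sum fun c _ => ?_
  simp only [hw, mul_one]
  by_cases h1 : p.u ≤ cnt O σ ∧ σ (Sum.inr c) ∈ O
  · rw [if_pos h1, if_pos h1]
    refine mul_le_mul_of_nonneg_right ?_ (pr_nonneg _ _)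
    have hc : (p.u : ℝ) ≤ cnt O σ := by exact_mod_cast h1.1
    rw [show (100 : ℝ) / (99 * (Fintype.card (Bij p.m p.k p.n) : ℝ) * p.u)
      = 1 / (99 / 100 * (Fintype.card (Bij p.m p.k p.n) : ℝ) * p.u) by field_simp]
    exact one_div_le_one_div_of_le (by positivity) (mul_le_mul hG hc (by linarith) hG0.le)
  · rw [if_neg h1, if_neg h1]; simp

/-- Domination by a fixed block with small weight and the mixture of two-block models. -/
theorem mix_lin {p : Par} (ok : Ok p) {G : Type*} [AddCommGroup G] [Fintype G] [DecidableEq G]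
    (g : Sym2 (Fin p.n) → G) (h : G) (O : Finset (Fin p.n)) (hO : p.T < O.card)
    (σ₀ : Bij p.m p.k p.n) (x : ℝ) :
    bp g h ≤ (2 : ℝ) ^ (99 * x) * pr (fun _ => (1 / 2 : ℝ))
        (fun e => if e ∈ (univ.map (jkEdge (m := p.m) (k := p.k))).map (emap σ₀) then g e else 0) 0
      + (2 : ℝ) ^ (-x) * (100 / (99 * (Fintype.card (Bij p.m p.k p.n) : ℝ))) *
        ∑ σ : Bij p.m p.k p.n, if p.u ≤ cnt O σ then pr (fun _ => (1 / 2 : ℝ))
          (fun e => if e ∈ (univ.map (jkEdge (m := p.m) (k := p.k))).map (emap σ) then g e else 0) 0 else 0 := by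
  classical
  have hN := card_bij_pos ok.hmk
  have hG := gset_card ok O hO
  have hG0 : (0 : ℝ) < (gset p O).card := by linarith
  set NG : ℝ := ((gset p O).card : ℝ) with hNG
  set wσ : Bij p.m p.k p.n → ℝ := fun σ => if p.u ≤ cnt O σ then 99 / 100 / NG else 0 with hwσ
  set w : Option (Bij p.m p.k p.n) → ℝ := fun o => Option.elim o (1 / 100) wσ
  set c : Option (Bij p.m p.k p.n) → ℝ := fun o => Option.elim o ((2 : ℝ) ^ (99 * x)) fun _ => (2 : ℝ) ^ (-x)
  set H : Option (Bij p.m p.k p.n) → Finset (Sym2 (Fin p.n)) := fun o =>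
    (univ.map (jkEdge (m := p.m) (k := p.k))).map (emap (o.getD σ₀))
  have hwσ0 : ∀ σ, 0 ≤ wσ σ := fun σ => by simp only [hwσ]; split <;> positivity
  have hw0 : ∀ o, 0 ≤ w o := by rintro (_ | σ) <;> simp [w, hwσ0]
  have hwsum : ∑ σ, wσ σ = 99 / 100 := by
    simp only [hwσ]
    rw [← sum_filter, sum_const, nsmul_eq_mul, show (univ.filter fun σ => p.u ≤ cnt O σ) = gset p O from rfl, ← hNG]
    field_simp
  have hsum : ∑ o, w o = 1 := by
    rw [Fintype.sum_option]; simp only [w, Option.elim_none, Option.elim_some, hwsum]; norm_num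
  have hc : ∀ o, 0 < c o := by rintro (_ | σ) <;> simp only [c, Option.elim_none, Option.elim_some] <;> positivity
  have hc1 : 1 ≤ ∏ o, c o ^ w o := by
    rw [Fintype.prod_option]
    simp only [c, w, Option.elim_none, Option.elim_some]
    rw [← Real.rpow_sum_of_pos (by positivity), hwsum, ← Real.rpow_mul (by norm_num), ← Real.rpow_mul (by norm_num),
      ← Real.rpow_add (by norm_num)]
    exact Real.one_le_rpow (by norm_num) (le_of_eq (by ring))
  have hf : ∀ e, ∑ o ∈ univ.filter (fun o => e ∈ H o), w o ≤ 1 / 2 := by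
    intro e
    induction e using Sym2.ind with
    | h a b =>
      rw [sum_filter, Fintype.sum_option]
      simp only [w, H, Option.elim_none, Option.elim_some, Option.getD_some]
      by_cases hab : a = b
      · subst hab
        have h0 : ∀ σ : Bij p.m p.k p.n, s(a, a) ∉ (univ.map (jkEdge (m := p.m) (k := p.k))).map (emap σ) :=
          fun σ hm => (mem_cross σ a a hm).1 rfl
        simp [h0]
      refine le_trans (add_le_add (show _ ≤ (1 / 100 : ℝ) by split <;> norm_num) (sum_le_sum (g := fun σ =>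
        if p.u ≤ cnt O σ then 99 / 100 * (cross σ a b / NG) else 0) fun σ _ => ?_)) ?_
      · have := cross_nonneg σ a b
        split
        · next hm =>
          rw [(mem_cross σ a b hm).2]
          simp only [hwσ]
          split
          · exact le_of_eq (by ring)
          · exact le_rfl
        · split
          · positivity
          · exact le_rfl
      · rw [← sum_filter, ← mul_sum, show (univ.filter fun σ => p.u ≤ cnt O σ) = gset p O from rfl]
        have := cross_freq ok O hO hab
        linarith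
  refine (bp_le_mix g h w c H hw0 hsum hc hc1 hf).trans ?_
  rw [Fintype.sum_option]
  simp only [w, c, H, Option.elim_none, Option.elim_some, Option.getD_none, Option.getD_some]
  refine add_le_add ?_ ?_
  · refine mul_le_mul_of_nonneg_right ?_ (pr_nonneg _ _)
    nlinarith [Real.rpow_pos_of_pos (show (0 : ℝ) < 2 by norm_num) (99 * x)]
  · rw [mul_sum]
    refine sum_le_sum fun σ _ => ?_
    simp only [hwσ]
    by_cases h1 : p.u ≤ cnt O σ
    · rw [if_pos h1, if_pos h1]
      refine mul_le_mul_of_nonneg_right ?_ (pr_nonneg _ _)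
      rw [mul_comm]
      refine mul_le_mul_of_nonneg_left ?_ (by positivity)
      rw [div_le_div_iff₀ hG0 (by positivity)]
      linarith
    · rw [if_neg h1, if_neg h1]; simp

end

end Vale.Agent.P160.Rate2
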